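import Vale.Agent.P016Z.Pois.Rem
import Vale.Agent.P016Z.Cheb.ExpLog
import Vale.Agent.P026Z.Vor.Shift

/-!
P016, block HECKE: analytic continuation and the uniform growth bound.
-/

namespace Vale.Agent.P016Z.Pois

open NumberField NumberField.Units Complex Finset Module TH MeasureTheory
open scoped Real nonZeroDivisors

variable {K ι : Type} [Field K] [NumberField K] [Fintype ι] (C : CM K ι)

/-- the reciprocal of the archimedean factor -/
noncomputable def pre (K ι : Type) [Field K] [NumberField K] [Fintype ι] (A : FI K) (s : ℂ) : ℂ :=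
  (torsionOrder K : ℂ)⁻¹ * ((2 * π) ^ s * (Gamma s)⁻¹) ^ Fintype.card ι *
    cexp (s * Real.log (nrm A))

theorem two_pi_ne : (2 * π : ℂ) ≠ 0 := by exact_mod_cast Real.two_pi_pos.ne'

theorem differentiable_pre (A : FI K) : Differentiable ℂ (pre K ι A) := by
  have h1 : Differentiable ℂ fun s : ℂ => (2 * π : ℂ) ^ s :=
    differentiable_id.const_cpow (Or.inl two_pi_ne)
  have h2 := differentiable_one_div_Gamma
  unfold pre
  fun_prop

theorem pre_mul (A : FI K) {s : ℂ} (hs : 0 < s.re) :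
    pre K ι A s * (torsionOrder K * ((1 / (2 * π)) ^ s * Gamma s) ^ Fintype.card ι *
      cexp (-s * Real.log (nrm A))) = 1 := by
  have h1 : (torsionOrder K : ℂ) ≠ 0 := by exact_mod_cast torsionOrder_ne_zero K
  have h2 := Gamma_ne_zero_of_re_pos hs
  have h3 : (2 * π : ℂ) ^ s * (1 / (2 * π)) ^ s = 1 := by
    have h := mul_cpow_ofReal_nonneg (a := 2 * π) (b := 1 / (2 * π)) Real.two_pi_pos.le
      (by positivity) s
    push_cast at h
    rw [← h, mul_one_div_cancel two_pi_ne, one_cpow]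
  have h4 : cexp (s * Real.log (nrm A)) * cexp (-s * Real.log (nrm A)) = 1 := by
    rw [← Complex.exp_add]; simp
  have h5 : ((2 * π : ℂ) ^ s * (Gamma s)⁻¹) ^ Fintype.card ι *
      ((1 / (2 * π)) ^ s * Gamma s) ^ Fintype.card ι = 1 := by
    rw [← mul_pow, mul_mul_mul_comm, h3, inv_mul_cancel₀ h2, mul_one, one_pow]
  calc _ = ((torsionOrder K : ℂ)⁻¹ * torsionOrder K) *
      (((2 * π : ℂ) ^ s * (Gamma s)⁻¹) ^ Fintype.card ι *
        ((1 / (2 * π)) ^ s * Gamma s) ^ Fintype.card ι) *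
      (cexp (s * Real.log (nrm A)) * cexp (-s * Real.log (nrm A))) := by unfold pre; ring
    _ = 1 := by rw [inv_mul_cancel₀ h1, h4, h5]; ring

/-- the continuation of `(s - 1)` times the class zeta function -/
noncomputable def FA (A : FI K) (w : ℕ → ℂ) (c : ℂ) (a : ℝ) (s : ℂ) : ℂ :=
  pre K ι A s * ((s - 1) * (Pp C A w a s + Mm C A w c a s - w 0 * (kap C * (cexp (s * a) / s))) +
    c * (kap C * cexp ((s - 1) * a)))

theorem FA_spec (A A' : FI K) {w : ℕ → ℂ} {B : ℝ} (hw : ∀ n, ‖w n‖ ≤ B) (c : ℂ) {B' : ℝ}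
    (b : ι → ℝ) (hB : 0 ≤ B')
    (hP : ∀ y, ‖rem C A w c y‖ ≤ B' * Real.exp (-∑ j, y j) * thr C A' (b - y)) (a : ℝ) :
    DifferentiableOn ℂ (FA C A w c a) {s | 3 / 4 < s.re} ∧
      ∀ s : ℂ, 1 < s.re → FA C A w c a s = (s - 1) * zc A w s := by
  constructor
  · have h0 : {s : ℂ | 3 / 4 < s.re} ⊆ {s | 0 < s.re} := fun s (hs : 3 / 4 < s.re) =>
      show 0 < s.re by linarith
    have h1 := (diff_Pp C A hw a).mono h0
    have h2 := (diff_Mm C A A' w c b hB hP a).mono h0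
    have h3 := (differentiable_pre (ι := ι) A).differentiableOn (s := {s : ℂ | 3 / 4 < s.re})
    have h4 : ∀ s ∈ {s : ℂ | 3 / 4 < s.re}, s ≠ 0 := fun s (hs : 3 / 4 < s.re) h => by
      rw [h] at hs; norm_num at hs
    unfold FA
    fun_prop (disch := assumption)
  · intro s hs
    have h1 := split_eq C A A' hw c b hB hP a hs
    have h2 := pre_mul (ι := ι) A (s := s) (by linarith)
    have h3 : s - 1 ≠ 0 := fun h => by
      rw [sub_eq_zero.1 h] at hs; simp at hs
    have h4 : (s - 1) * (cexp ((s - 1) * a) / (s - 1)) = cexp ((s - 1) * a) := by field_simp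
    unfold FA
    linear_combination (s - 1) * zc A w s * h2 - pre K ι A s * (s - 1) * h1 -
      pre K ι A s * c * kap C * h4

theorem isCont_sum (A : ClassGroup (𝓞 K) → FI K)
    (hA : Function.Bijective fun c => ClassGroup.mk K (A c)) {w : ℕ → ℂ} {B : ℝ}
    (hw : ∀ n, ‖w n‖ ≤ B) (F : ClassGroup (𝓞 K) → ℂ → ℂ)
    (hF : ∀ c, DifferentiableOn ℂ (F c) {s | 3 / 4 < s.re} ∧
      ∀ s : ℂ, 1 < s.re → F c s = (s - 1) * zc (A c) w s) :
    IsCont K w fun s => ∑ c, F c s := by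
  refine ⟨DifferentiableOn.fun_sum fun c _ => (hF c).1, fun s hs => ?_⟩
  rw [← sum_zc A hA hw hs, mul_sum]
  exact sum_congr rfl fun c _ => (hF c).2 s hs

theorem _root_.Vale.Agent.P016Z.hcont : HCONT := by
  intro K _ _ _ m hm w hp
  obtain ⟨C⟩ := exists_CM' K
  have hw : ∀ n, ‖w n‖ ≤ ∑ k ∈ range m, ‖w k‖ := fun n => by
    rw [← (show Function.Periodic w m from hp).map_mod_nat]
    exact single_le_sum (f := fun k => ‖w k‖) (fun _ _ => norm_nonneg _)
      (mem_range.2 (Nat.mod_lt _ (Nat.pos_of_ne_zero hm)))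
  choose J hJ using ClassGroup.mk0_surjective (R := 𝓞 K)
  choose c B' b hB hP using fun k => exists_rem C (J k) hm hw hp
  refine ⟨_, isCont_sum (fun k => FractionalIdeal.mk0 K (J k)) ?_ hw _
    fun k => FA_spec C _ _ hw (c k) (b k) (hB k) (hP k) 0⟩
  simp only [ClassGroup.mk_mk0, hJ]
  exact Function.bijective_id

theorem RR_nonneg (A : FI K) : 0 ≤ RR K ι A := by
  have := zr_nonneg A
  unfold RR
  positivity

theorem vol_sq_RR (A : FI K) : vol A ^ 2 * RR K ι A =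
    torsionOrder K * ((1 / (2 * π)) ^ 2) ^ Fintype.card ι * |(discr K : ℝ)| * zr A := by
  have := (nrm_pos A).ne'
  rw [vol, RR, mul_pow, Real.sq_sqrt (abs_nonneg _)]
  field_simp

theorem norm_Pp (A : FI K) {s : ℂ} (hs : s.re ≤ 2) :
    ‖Pp C A (fun _ => 1) (-Real.log (vol A)) s‖ ≤
      Real.exp (-s.re * Real.log (vol A)) * (vol A ^ 2 * RR K ι A) := by
  obtain ⟨h1, h2⟩ := unfold_two C (fd_F0 C) A
  have h3 : vol A ^ 2 = Real.exp (2 * Real.log (vol A)) := by
    rw [two_mul, Real.exp_add, Real.exp_log (vol_pos A), sq]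
  have h4 : 0 ≤ᵐ[volume.restrict (F0 C)] fun y => Real.exp (2 * ∑ j, y j) * thr C A y :=
    ae_of_all _ fun y => mul_nonneg (Real.exp_pos _).le (thr_nonneg C A y)
  rw [← h2, h3, ← mul_assoc, ← Real.exp_add]
  refine le_trans ?_ (mul_le_mul_of_nonneg_left (setIntegral_mono_set h1 h4
    (Set.sdiff_subset (t := {y | ∑ j, y j ≤ -Real.log (vol A)})).eventuallyLE) (Real.exp_pos _).le)
  rw [← integral_const_mul]
  refine norm_integral_le_of_norm_le ((h1.mono_set Set.sdiff_subset).const_mul _) ?_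
  filter_upwards [ae_restrict_mem (measurableSet_Sp C _)] with y hy
  have h5 : -Real.log (vol A) ≤ ∑ j, y j := (not_le.1 hy.2).le
  rw [norm_mul, norm_exp, re_mul_ofReal, th_one, norm_real, Real.norm_of_nonneg (thr_nonneg C A y),
    ← mul_assoc, ← Real.exp_add]
  exact mul_le_mul_of_nonneg_right (Real.exp_le_exp.2 (by nlinarith)) (thr_nonneg C A y)

theorem norm_Mm (A : FI K) {s : ℂ} (hs : 0 ≤ s.re) :
    ‖Mm C A (fun _ => 1) ((vol A)⁻¹ : ℝ) (-Real.log (vol A)) s‖ ≤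
      Real.exp (-s.re * Real.log (vol A)) * (vol (dl A) ^ 2 * RR K ι (dl A)) := by
  obtain ⟨h1, h2⟩ := unfold_neg C (dl A) 0
  have h0 : (vol A)⁻¹ = Real.exp (-Real.log (vol A)) := by
    rw [Real.exp_neg, Real.exp_log (vol_pos A)]
  have h3 : vol (dl A) ^ 2 = Real.exp (-2 * Real.log (vol A)) := by
    rw [vol_dl, h0, sq, ← Real.exp_add]; ring_nf
  have h4 : 0 ≤ᵐ[volume.restrict (F0 C)]
      fun y => Real.exp (2 * ∑ j, (0 - y) j) * thr C (dl A) (0 - y) :=
    ae_of_all _ fun y => mul_nonneg (Real.exp_pos _).le (thr_nonneg C _ _)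
  rw [← h2, h3, ← mul_assoc, ← Real.exp_add]
  refine le_trans ?_ (mul_le_mul_of_nonneg_left (setIntegral_mono_set h1 h4
    (Set.inter_subset_left (t := {y | ∑ j, y j ≤ -Real.log (vol A)})).eventuallyLE)
      (Real.exp_pos _).le)
  rw [← integral_const_mul]
  refine norm_integral_le_of_norm_le ((h1.mono_set Set.inter_subset_left).const_mul _) ?_
  filter_upwards [ae_restrict_mem (measurableSet_Sm C _)] with y hy
  have h5 : ∑ j, y j ≤ -Real.log (vol A) := hy.2
  have h6 := thr_nonneg C (dl A) (0 - y)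
  rw [norm_mul, norm_exp, re_mul_ofReal, rem_one, norm_real, h0,
    Real.norm_of_nonneg (by positivity), ← mul_assoc, ← mul_assoc, ← mul_assoc, ← Real.exp_add,
    ← Real.exp_add, ← Real.exp_add]
  simp only [Pi.sub_apply, Pi.zero_apply, zero_sub, sum_neg_distrib] at h6 ⊢
  exact mul_le_mul_of_nonneg_right (Real.exp_le_exp.2 (by nlinarith)) h6

theorem rem_one_le (A : FI K) (y : ι → ℝ) : ‖rem C A (fun _ => 1) ((vol A)⁻¹ : ℝ) y‖ ≤
    (vol A)⁻¹ * Real.exp (-∑ j, y j) * thr C (dl A) (0 - y) := by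
  have := vol_pos A
  have := thr_nonneg C (dl A) (0 - y)
  rw [rem_one, norm_real, Real.norm_of_nonneg (by positivity)]

theorem kap_le (A : FI K) : kap C ≤ 2 * (vol A ^ 2 * RR K ι A) := by
  have hV := vol_pos A
  have h1 := split_eq C A (dl A) (w := fun _ => 1) (B := 1) (by simp) ((vol A)⁻¹ : ℝ) 0
    (by positivity) (rem_one_le C A) (-Real.log (vol A)) (s := 2) (by simp)
  obtain ⟨h2, h3⟩ := unfold_th C (fd_F0 C) A (w := fun _ => 1) (B := 1) (by simp) (s := 2)
    (by simp)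
  have h4 : ∀ y : ι → ℝ, cexp (2 * (∑ j, y j : ℝ)) = (Real.exp (2 * ∑ j, y j) : ℝ) := fun y => by
    rw [ofReal_exp, ofReal_mul]; rfl
  have h5 : cexp ((2 - 1) * (-Real.log (vol A) : ℝ)) = ((vol A)⁻¹ : ℝ) := by
    rw [← Real.exp_log (inv_pos.2 hV), Real.log_inv, ofReal_exp]; congr 1; ring
  have h6 : cexp (2 * (-Real.log (vol A) : ℝ)) = ((vol A)⁻¹ * (vol A)⁻¹ : ℝ) := by
    rw [ofReal_mul, ← h5, ← Complex.exp_add]; congr 1; ring
  rw [← h3, Pp, Mm, h5, h6] at h1
  simp only [h4, th_one, rem_one, ← ofReal_mul, integral_complex_ofReal,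
    (unfold_two C (fd_F0 C) A).2] at h1
  have h7 := congrArg Complex.re h1
  have h8 : 0 ≤ ∫ y in Sp C (-Real.log (vol A)), Real.exp (2 * ∑ j, y j) * thr C A y :=
    integral_nonneg fun y => mul_nonneg (Real.exp_pos _).le (thr_nonneg C A y)
  have h9 : 0 ≤ ∫ y in Sm C (-Real.log (vol A)), Real.exp (2 * ∑ j, y j) *
      ((vol A)⁻¹ * Real.exp (-∑ j, y j) * thr C (dl A) (0 - y)) :=
    integral_nonneg fun y => by have := thr_nonneg C (dl A) (0 - y); positivity
  norm_num at h7 h9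
  have h10 : kap C * ((vol A)⁻¹ * (vol A)⁻¹) / 2 ≤ RR K ι A := by
    rw [h7]; linarith
  have h11 := mul_le_mul_of_nonneg_left h10 (sq_nonneg (vol A))
  have h12 : vol A ^ 2 * (kap C * ((vol A)⁻¹ * (vol A)⁻¹) / 2) = kap C / 2 := by field_simp
  linarith

theorem exists_inv_Gamma : ∃ G : ℝ, 1 ≤ G ∧ ∀ s : ℂ, 0 ≤ s.re → s.re ≤ 2 →
    ‖(Gamma s)⁻¹‖ ≤ G * Real.exp (π * |s.im|) := by
  obtain ⟨C, hC0, hC⟩ := P026Z.Vor.exists_inv_Gamma_bound
  obtain ⟨B, hB⟩ := (isCompact_closedBall (0 : ℂ) 3).exists_bound_of_continuousOn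
    differentiable_one_div_Gamma.continuous.continuousOn
  have h0 := abs_nonneg B
  refine ⟨1 + C + |B|, by linarith, fun s h1 h2 => ?_⟩
  have h3 : 1 ≤ Real.exp (π * |s.im|) := Real.one_le_exp (by positivity)
  rcases le_total 1 |s.im| with h | h
  · exact (hC s (by linarith) (by linarith) h).trans (by gcongr; linarith)
  · have h4 := hB s (mem_closedBall_zero_iff.2 ((norm_le_abs_re_add_abs_im s).trans
      (by rw [abs_of_nonneg h1]; linarith)))
    nlinarith [le_abs_self B]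

theorem one_le_abs_discr : (1 : ℝ) ≤ |(discr K : ℝ)| := by
  exact_mod_cast Int.one_le_abs (discr_ne_zero K)

theorem norm_pre (A : FI K) {s : ℂ} (h0 : 0 ≤ s.re) (h2 : s.re ≤ 2) :
    ‖pre K ι A s‖ * Real.exp (-s.re * Real.log (vol A)) *
      (torsionOrder K * ((1 / (2 * π)) ^ 2) ^ Fintype.card ι) ≤ ‖(Gamma s)⁻¹‖ ^ Fintype.card ι := by
  have h1 : (torsionOrder K : ℝ) ≠ 0 := by exact_mod_cast torsionOrder_ne_zero K
  have h3 : ‖(2 * π : ℂ) ^ s‖ * (1 / (2 * π)) ^ 2 ≤ 1 := by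
    have h := norm_cpow_eq_rpow_re_of_pos Real.two_pi_pos s
    push_cast at h
    have h' : (2 * π) ^ s.re ≤ (2 * π) ^ (2 : ℝ) :=
      Real.rpow_le_rpow_of_exponent_le (by linarith [Real.pi_gt_three]) h2
    rw [Real.rpow_two] at h'
    rw [h, one_div, inv_pow, ← div_eq_mul_inv, div_le_one (by positivity)]
    exact h'
  have h4 : Real.exp (s.re * Real.log (nrm A)) * Real.exp (-s.re * Real.log (vol A)) ≤ 1 := by
    have h5 : 0 ≤ Real.log √|(discr K : ℝ)| := Real.log_nonneg (Real.one_le_sqrt.2 one_le_abs_discr)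
    rw [← Real.exp_add, vol, Real.log_mul (Real.sqrt_pos.2 abs_discr_pos).ne' (nrm_pos A).ne',
      Real.exp_le_one_iff]
    nlinarith
  calc _ = ((torsionOrder K : ℝ)⁻¹ * torsionOrder K) *
        (‖(2 * π : ℂ) ^ s‖ * (1 / (2 * π)) ^ 2) ^ Fintype.card ι *
        (Real.exp (s.re * Real.log (nrm A)) * Real.exp (-s.re * Real.log (vol A))) *
        ‖(Gamma s)⁻¹‖ ^ Fintype.card ι := by
        rw [pre, norm_mul, norm_mul, norm_pow, norm_mul, norm_exp, re_mul_ofReal, norm_inv,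
          norm_natCast, mul_pow, mul_pow]
        ring
    _ ≤ 1 * 1 ^ Fintype.card ι * 1 * ‖(Gamma s)⁻¹‖ ^ Fintype.card ι := by
        rw [inv_mul_cancel₀ h1]; gcongr
    _ = _ := by simp

theorem norm_FA (A : FI K) {s : ℂ} (h0 : 3 / 4 < s.re) (h2 : s.re ≤ 2) :
    ‖FA C A (fun _ => 1) ((vol A)⁻¹ : ℝ) (-Real.log (vol A)) s‖ ≤
      (‖s - 1‖ + 3) * ‖(Gamma s)⁻¹‖ ^ Fintype.card ι * |(discr K : ℝ)| * (zr A + zr (dl A)) := by
  have hs : 3 / 4 < ‖s‖ := h0.trans_le (re_le_norm s)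
  have hs0 : s ≠ 0 := norm_pos_iff.1 (by linarith)
  have h1 : (((vol A)⁻¹ : ℝ) : ℂ) * cexp ((s - 1) * (-Real.log (vol A) : ℝ)) =
      cexp (s * (-Real.log (vol A) : ℝ)) := by
    rw [← Real.exp_log (inv_pos.2 (vol_pos A)), Real.log_inv, ofReal_exp, ← Complex.exp_add]
    congr 1; ring
  have h3 : FA C A (fun _ => 1) ((vol A)⁻¹ : ℝ) (-Real.log (vol A)) s = pre K ι A s *
      ((s - 1) * (Pp C A (fun _ => 1) (-Real.log (vol A)) s +
        Mm C A (fun _ => 1) ((vol A)⁻¹ : ℝ) (-Real.log (vol A)) s) +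
        kap C * (cexp (s * (-Real.log (vol A) : ℝ)) / s)) := by
    rw [FA, mul_left_comm (((vol A)⁻¹ : ℝ) : ℂ), h1]
    field_simp
    ring
  set E := Real.exp (-s.re * Real.log (vol A)) with hE
  set X := vol A ^ 2 * RR K ι A with hX
  set Y := vol (dl A) ^ 2 * RR K ι (dl A) with hY
  have hX0 : 0 ≤ X := mul_nonneg (sq_nonneg _) (RR_nonneg A)
  have hY0 : 0 ≤ Y := mul_nonneg (sq_nonneg _) (RR_nonneg _)
  have hE0 : 0 < E := Real.exp_pos _
  have h4 : ‖(kap C : ℂ) * (cexp (s * (-Real.log (vol A) : ℝ)) / s)‖ ≤ 3 * (E * (X + Y)) := by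
    rw [norm_mul, norm_div, norm_exp, re_mul_ofReal, norm_real, Real.norm_of_nonneg (kap_pos C).le,
      mul_neg, ← neg_mul, ← hE, ← mul_div_assoc, div_le_iff₀ (by linarith)]
    have h5 := mul_le_mul_of_nonneg_right (kap_le C A) hE0.le
    have h6 := mul_le_mul_of_nonneg_left hs.le (mul_nonneg hE0.le (add_nonneg hX0 hY0))
    nlinarith [mul_nonneg hE0.le hX0, mul_nonneg hE0.le hY0]
  have h5 : ‖(s - 1) * (Pp C A (fun _ => 1) (-Real.log (vol A)) s +
      Mm C A (fun _ => 1) ((vol A)⁻¹ : ℝ) (-Real.log (vol A)) s)‖ ≤ ‖s - 1‖ * (E * (X + Y)) := by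
    rw [norm_mul, mul_add]
    exact mul_le_mul_of_nonneg_left ((norm_add_le _ _).trans
      (add_le_add (norm_Pp C A h2) (norm_Mm C A (by linarith)))) (norm_nonneg _)
  have h6 := mul_le_mul_of_nonneg_right (norm_pre (ι := ι) A (s := s) (by linarith) h2)
    (show 0 ≤ (‖s - 1‖ + 3) * |(discr K : ℝ)| * (zr A + zr (dl A)) by
      have := zr_nonneg A
      have := zr_nonneg (dl A)
      positivity)
  rw [h3, norm_mul]
  refine (mul_le_mul_of_nonneg_left ((norm_add_le _ _).trans (add_le_add h5 h4))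
    (norm_nonneg _)).trans ?_
  rw [hX, hY, vol_sq_RR, vol_sq_RR]
  linarith

theorem sum_zr (A : ClassGroup (𝓞 K) → FI K)
    (hA : Function.Bijective fun c => ClassGroup.mk K (A c)) :
    ∑ c, zr (A c) ≤ ‖LK K (fun _ => 1) 2‖ := by
  rw [← sum_zc A hA (B := 1) (by simp) (by simp)]
  simp only [zc_two, ← ofReal_sum, norm_real]
  exact le_abs_self _

theorem _root_.Vale.Agent.P016Z.hbd : HBD := by
  obtain ⟨G, hG1, hG⟩ := exists_inv_Gamma
  obtain ⟨C1, hC1⟩ := expLog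
  refine ⟨8 + (Real.log G + π) + 1 + (1 + |C1|), fun K _ _ _ F hF s h0 h2 => ?_⟩
  obtain ⟨C⟩ := exists_CM' K
  have hsur : ∀ c : ClassGroup (𝓞 K), ∃ A : FI K, ClassGroup.mk K A = c := fun c =>
    ClassGroup.induction (K := K) (fun A => ⟨A, rfl⟩) c
  choose A hA using hsur
  have hA1 : Function.Bijective fun c => ClassGroup.mk K (A c) := by
    simp only [hA]; exact Function.bijective_id
  have hA2 : Function.Bijective fun c => ClassGroup.mk K (dl (A c)) := by
    have : (fun c => ClassGroup.mk K (dl (A c))) = fun c => ClassGroup.mk K (dl 1) * c⁻¹ := by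
      ext c; rw [dl_eq, map_mul, map_inv, hA]
    rw [this]
    exact (Group.mulLeft_bijective _).comp inv_involutive.bijective
  have h1 := isCont_sum A hA1 (w := fun _ => 1) (B := 1) (by simp) _ fun k =>
    FA_spec C (A k) (dl (A k)) (w := fun _ => 1) (B := 1) (by simp) ((vol (A k))⁻¹ : ℝ) 0
      (inv_pos.2 (vol_pos _)).le (rem_one_le C (A k)) (-Real.log (vol (A k)))
  have ho : IsOpen {s : ℂ | 3 / 4 < s.re} := isOpen_lt continuous_const continuous_re
  have h3 := (hF.1.analyticOnNhd ho).eqOn_of_preconnected_of_eventuallyEq (h1.1.analyticOnNhd ho)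
    (convex_halfSpace_re_gt _).isPreconnected (z₀ := 2) (by norm_num) (by
      filter_upwards [(isOpen_lt continuous_const continuous_re).mem_nhds
        (show (2 : ℂ) ∈ {s : ℂ | 1 < s.re} by simp)] with z hz
      exact (hF.2 z hz).trans (h1.2 z hz).symm) h0
  have hn : (1 : ℝ) ≤ finrank ℚ K := by exact_mod_cast finrank_pos
  have hD := Real.log_nonneg (one_le_abs_discr (K := K))
  have ht := abs_nonneg s.im
  set T := size K * (1 + |s.im|) with hT
  have hT1 : finrank ℚ K * (1 + |s.im|) ≤ T := by rw [hT, size]; nlinarith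
  have hZ : ‖LK K (fun _ => 1) 2‖ ≤ Real.exp ((1 + |C1|) * T) := by
    obtain ⟨h, -, h4, h5⟩ := hC1 K 1 (by simp)
    have h6 := h5 2 (by simp)
    have h7 := h4 2 (by norm_num)
    have h8 := norm_PK_le (K := K) (w := (1 : ℕ →* ℂ)) (by simp) (s := 2) (by simp)
    rw [show (fun _ => 1 : ℕ → ℂ) = (1 : ℕ →* ℂ) from rfl, h6]
    refine (norm_exp_le_exp_norm _).trans (Real.exp_le_exp.2 ((norm_add_le _ _).trans ?_))
    have h9 : (finrank ℚ K : ℝ) ≤ T := by nlinarith
    nlinarith [le_abs_self C1, abs_nonneg C1]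
  have hΓ : ‖(Gamma s)⁻¹‖ ^ Fintype.card (InfinitePlace K) ≤ Real.exp ((Real.log G + π) * T) := by
    have h4 : (Fintype.card (InfinitePlace K) : ℝ) ≤ finrank ℚ K := by
      have := C.card_eq
      exact_mod_cast (by omega)
    have h5 := Real.log_nonneg hG1
    have h6 := Real.pi_pos
    refine (pow_le_pow_left₀ (norm_nonneg _) (hG s (by linarith) h2) _).trans ?_
    rw [← Real.exp_log (show 0 < G by linarith), ← Real.exp_add, ← Real.exp_nat_mul, Real.log_exp]
    refine Real.exp_le_exp.2 ((mul_le_mul_of_nonneg_right h4 (by positivity)).trans ?_)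
    refine le_trans ?_ (mul_le_mul_of_nonneg_left hT1 (by positivity))
    nlinarith [mul_nonneg (mul_nonneg (zero_le_one.trans hn) h5) ht]
  have hd : |(discr K : ℝ)| ≤ Real.exp (1 * T) := by
    rw [← Real.exp_log (abs_discr_pos (K := K))]
    refine Real.exp_le_exp.2 ?_
    rw [hT, size]
    nlinarith
  have hs : (‖s - 1‖ + 3) * 2 ≤ Real.exp (8 * T) := by
    have h4 := norm_le_abs_re_add_abs_im (s - 1)
    have h5 : |(s - 1).re| ≤ 1 := by rw [abs_le, sub_re, one_re]; constructor <;> linarith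
    rw [sub_im, one_im, sub_zero] at h4
    nlinarith [Real.add_one_le_exp (8 * T)]
  rw [h3]
  refine (norm_sum_le _ _).trans ((sum_le_sum fun c _ => norm_FA C (A c) h0 h2).trans ?_)
  rw [← mul_sum, sum_add_distrib]
  calc _ ≤ (‖s - 1‖ + 3) * ‖(Gamma s)⁻¹‖ ^ Fintype.card (InfinitePlace K) * |(discr K : ℝ)| *
        (‖LK K (fun _ => 1) 2‖ + ‖LK K (fun _ => 1) 2‖) :=
        mul_le_mul_of_nonneg_left (add_le_add (sum_zr A hA1) (sum_zr _ hA2)) (by positivity)
    _ = (‖s - 1‖ + 3) * 2 * ‖(Gamma s)⁻¹‖ ^ Fintype.card (InfinitePlace K) * |(discr K : ℝ)| *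
        ‖LK K (fun _ => 1) 2‖ := by ring
    _ ≤ Real.exp (8 * T) * Real.exp ((Real.log G + π) * T) * Real.exp (1 * T) *
        Real.exp ((1 + |C1|) * T) := by gcongr
    _ = _ := by rw [← Real.exp_add, ← Real.exp_add, ← Real.exp_add]; congr 1; ring

end Vale.Agent.P016Z.Pois
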