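import Vale.Agent.P016Z.TH.Emb
import Mathlib.NumberTheory.NumberField.Units.DirichletTheorem
import Mathlib.NumberTheory.NumberField.InfinitePlace.TotallyRealComplex
import Mathlib.MeasureTheory.Integral.Pi
import Mathlib.Analysis.SpecialFunctions.ImproperIntegrals

/-!
P016, block POIS: the lattice of logarithms of units and its fundamental domains in `ι → ℝ`.
-/

namespace Vale.Agent.P016Z.Pois

open NumberField NumberField.Units Complex Finset Module TH MeasureTheory
open scoped Real

variable {K ι : Type} [Field K] [NumberField K] [Fintype ι] (C : CM K ι)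

/-- the vector of the `log |σ_j x|²` -/
noncomputable def lg (x : K) : ι → ℝ := fun j => Real.log (normSq (C.sig j x))

omit [NumberField K] [Fintype ι] in
theorem normSq_pos' {x : K} (hx : x ≠ 0) (j : ι) : 0 < normSq (C.sig j x) :=
  normSq_pos.2 ((map_ne_zero _).2 hx)

omit [NumberField K] [Fintype ι] in
theorem lg_mul {x y : K} (hx : x ≠ 0) (hy : y ≠ 0) : lg C (x * y) = lg C x + lg C y := by
  ext j
  simp only [lg, map_mul, Pi.add_apply]
  exact Real.log_mul (normSq_pos' C hx j).ne' (normSq_pos' C hy j).ne'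

omit [NumberField K] [Fintype ι] in
theorem exp_lg {x : K} (hx : x ≠ 0) (j : ι) : Real.exp (lg C x j) = normSq (C.sig j x) :=
  Real.exp_log (normSq_pos' C hx j)

omit [NumberField K] in
theorem sum_lg {x : K} (hx : x ≠ 0) : ∑ j, lg C x j = Real.log (C.nm x) := by
  rw [CM.nm, Real.log_prod fun j _ => (normSq_pos' C hx j).ne']
  rfl

/-- the unit with exponents `n` in the fundamental system -/
noncomputable def un (K : Type) [Field K] [NumberField K] (n : Fin (rank K) → ℤ) : (𝓞 K)ˣ :=
  ∏ i, fundSystem K i ^ n i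

/-- a unit as an element of the field -/
abbrev uK (u : (𝓞 K)ˣ) : K := ((u : 𝓞 K) : K)

omit [NumberField K] in
theorem uK_ne (u : (𝓞 K)ˣ) : uK u ≠ 0 := by
  simp [uK]

omit [NumberField K] in
theorem uK_mul (u v : (𝓞 K)ˣ) : uK (u * v) = uK u * uK v := by simp [uK]

omit [NumberField K] [Fintype ι] in
/-- `lg` on units as a homomorphism -/
noncomputable def lgH : Additive (𝓞 K)ˣ →+ (ι → ℝ) where
  toFun u := lg C (uK u.toMul)
  map_zero' := by ext j; simp [lg, uK]
  map_add' u v := by rw [toMul_add, uK_mul, lg_mul C (uK_ne _) (uK_ne _)]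

theorem nm_unit (u : (𝓞 K)ˣ) : C.nm (uK u) = 1 := by
  have h1 := C.one_le_nm (x := (u : 𝓞 K)) u.ne_zero
  have h2 := C.one_le_nm (x := ((u⁻¹ : (𝓞 K)ˣ) : 𝓞 K)) (u⁻¹).ne_zero
  have h3 : C.nm (uK u) * C.nm (uK u⁻¹) = 1 := by
    rw [← C.nm_mul, ← uK_mul, mul_inv_cancel]; simp [uK, C.nm_one]
  change 1 ≤ C.nm (uK u) at h1
  change 1 ≤ C.nm (uK u⁻¹) at h2
  nlinarith

theorem sum_lg_unit (u : (𝓞 K)ˣ) : ∑ j, lg C (uK u) j = 0 := by
  rw [sum_lg C (uK_ne u), nm_unit, Real.log_one]

omit [Fintype ι] in
theorem lg_torsion {u : (𝓞 K)ˣ} (hu : u ∈ torsion K) : lg C (uK u) = 0 := by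
  ext j
  have h := (mem_torsion K).1 hu (InfinitePlace.mk (C.sig j))
  rw [InfinitePlace.apply] at h
  simp only [lg, normSq_eq_norm_sq, Pi.zero_apply]
  rw [show ‖C.sig j (uK u)‖ = 1 from h]
  simp

/-- the lattice vector with exponents `n` -/
noncomputable def lam (n : Fin (rank K) → ℤ) : ι → ℝ := lg C (uK (un K n))

omit [Fintype ι] in
theorem lam_eq (n : Fin (rank K) → ℤ) :
    lam C n = ∑ i, (n i : ℝ) • lg C (uK (fundSystem K i)) := by
  have h : lam C n = lgH C (Additive.ofMul (un K n)) := rfl
  rw [h, un, ofMul_prod, map_sum]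
  refine sum_congr rfl fun i _ => ?_
  rw [ofMul_zpow, map_zsmul, Int.cast_smul_eq_zsmul]
  rfl

theorem sum_lam (n : Fin (rank K) → ℤ) : ∑ j, lam C n j = 0 := sum_lg_unit C _

omit [NumberField K] [Fintype ι] in
theorem place_bij : Function.Bijective fun j => InfinitePlace.mk (C.sig j) := by
  constructor
  · intro j k h
    rcases InfinitePlace.mk_eq_iff.1 h with h | h
    · have := C.bij.1 (a₁ := Sum.inl j) (a₂ := Sum.inl k) h
      simpa using this
    · have := C.bij.1 (a₁ := Sum.inr j) (a₂ := Sum.inl k) h
      simp at this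
  · intro w
    obtain ⟨j | j, h⟩ := C.bij.2 w.embedding
    · exact ⟨j, by simp only [Sum.elim_inl] at h; simp only [h, InfinitePlace.mk_embedding]⟩
    · refine ⟨j, ?_⟩
      simp only [Sum.elim_inr] at h
      simp only
      rw [← InfinitePlace.mk_conjugate_eq, h, InfinitePlace.mk_embedding]

omit [NumberField K] [Fintype ι] in
theorem mult_eq (j : ι) : (InfinitePlace.mk (C.sig j)).mult = 2 := by
  have h0 : (InfinitePlace.mk (C.sig j)).IsComplex := by
    rw [← InfinitePlace.not_isReal_iff_isComplex, InfinitePlace.isReal_mk_iff,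
      ComplexEmbedding.isReal_iff]
    intro h
    have := C.bij.1 (a₁ := Sum.inr j) (a₂ := Sum.inl j) h
    simp at this
  exact InfinitePlace.mult_isComplex ⟨_, h0⟩

include C in
theorem card_option : Fintype.card (Option (Fin (rank K))) = finrank ℝ (ι → ℝ) := by
  rw [Fintype.card_option, Fintype.card_fin, finrank_fintype_fun_eq_card,
    Fintype.card_of_bijective (place_bij C), rank]
  have : 0 < Fintype.card (InfinitePlace K) := Fintype.card_pos
  omega

/-- the generators of the lattice together with a vector of trace one -/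
noncomputable def gen : Option (Fin (rank K)) → ι → ℝ
  | none => fun _ => (Fintype.card ι : ℝ)⁻¹
  | some i => lg C (uK (fundSystem K i))

theorem sum_gen_none : ∑ j, gen C none j = 1 := by
  have := C.nonempty
  simp [gen]

theorem gen_indep : LinearIndependent ℝ (gen C) := by
  classical
  rw [Fintype.linearIndependent_iff]
  intro g hg
  rw [Fintype.sum_option] at hg
  have h0 : g none = 0 := by
    have h := congrArg (fun y : ι → ℝ => ∑ j, y j) hg
    simp only [Pi.add_apply, Pi.smul_apply, smul_eq_mul, Finset.sum_apply, sum_add_distrib,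
      ← mul_sum, sum_gen_none, Pi.zero_apply, sum_const_zero] at h
    rw [sum_comm] at h
    simp only [← mul_sum, gen, sum_lg_unit, mul_zero, sum_const_zero] at h
    linarith
  rw [h0, zero_smul, zero_add] at hg
  have h1 := (Basis.ofZLatticeBasis ℝ (unitLattice K) (basisUnitLattice K)).linearIndependent
  rw [Fintype.linearIndependent_iff] at h1
  have h2 := h1 (fun i => g (some i)) (by
    ext w
    obtain ⟨j, hj⟩ := (place_bij C).2 w.1
    have h := congrFun hg j
    simp only [Finset.sum_apply, Pi.smul_apply, smul_eq_mul, Pi.zero_apply] at h ⊢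
    rw [← h]
    refine sum_congr rfl fun i _ => ?_
    rw [Basis.ofZLatticeBasis_apply, ← logEmbedding_fundSystem,
      dirichletUnitTheorem.logEmbedding_component]
    simp only at hj
    rw [← hj, mult_eq, InfinitePlace.apply]
    simp only [gen, lg, normSq_eq_norm_sq, Real.log_pow])
  rintro (_ | i)
  · exact h0
  · exact h2 i

/-- the basis of `ι → ℝ` adapted to the unit lattice -/
noncomputable def ub : Basis (Option (Fin (rank K))) ℝ (ι → ℝ) :=
  basisOfLinearIndependentOfCardEqFinrank (gen_indep C) (card_option C)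

theorem ub_apply (o : Option (Fin (rank K))) : ub C o = gen C o := by simp [ub]

theorem ub_none (y : ι → ℝ) : (ub C).repr y none = ∑ j, y j := by
  have h : (ub C).coord none = ∑ j, LinearMap.proj j := by
    refine (ub C).ext fun o => ?_
    rw [Basis.coord_apply, Basis.repr_self, ub_apply]
    simp only [LinearMap.coe_sum, Finset.sum_apply, LinearMap.coe_proj, Function.eval]
    rcases o with _ | i
    · rw [sum_gen_none]; simp
    · simp [gen, sum_lg_unit]
  have := LinearMap.congr_fun h y
  simpa using this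

theorem ub_lam (n : Fin (rank K) → ℤ) (i : Fin (rank K)) :
    (ub C).repr (lam C n) (some i) = n i := by
  classical
  have h : ∀ k, lg C (uK (fundSystem K k)) = ub C (some k) := fun k => (ub_apply C (some k)).symm
  simp [lam_eq, h, Finsupp.single_apply]

/-- fundamental domains of the unit lattice -/
def FD (F : Set (ι → ℝ)) : Prop :=
  MeasurableSet F ∧ ∀ y : ι → ℝ, ∃! n : Fin (rank K) → ℤ, y - lam C n ∈ F

/-- the standard fundamental domain -/
def F0 : Set (ι → ℝ) := {y | ∀ i, (ub C).repr y (some i) ∈ Set.Ico (0 : ℝ) 1}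

theorem measurable_repr (o : Option (Fin (rank K))) :
    Measurable fun y : ι → ℝ => (ub C).repr y o :=
  ((ub C).coord o).continuous_of_finiteDimensional.measurable

theorem fd_F0 : FD C (F0 C) := by
  refine ⟨?_, fun y => ?_⟩
  · rw [F0, Set.ofPred_forall]
    exact MeasurableSet.iInter fun i => measurable_repr C _ measurableSet_Ico
  have h : ∀ n : Fin (rank K) → ℤ, y - lam C n ∈ F0 C ↔
      n = fun i => ⌊(ub C).repr y (some i)⌋ := by
    intro n
    simp only [F0, Set.mem_ofPred_eq, map_sub, Finsupp.sub_apply, ub_lam, Set.mem_Ico, funext_iff]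
    refine forall_congr' fun i => ?_
    rw [eq_comm, Int.floor_eq_iff]
    constructor <;> rintro ⟨h1, h2⟩ <;> constructor <;> linarith
  simp only [h]
  exact existsUnique_eq

omit [Fintype ι] in
theorem lam_neg (n : Fin (rank K) → ℤ) : lam C (-n) = -lam C n := by
  simp [lam_eq]

omit [Fintype ι] in
/-- reflected and translated fundamental domains -/
theorem FD.neg {F : Set (ι → ℝ)} (h : FD C F) (a : ι → ℝ) : FD C {y | a - y ∈ F} := by
  refine ⟨(measurable_const.sub measurable_id) h.1, fun y => ?_⟩
  obtain ⟨n, hn, hu⟩ := h.2 (a - y)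
  refine ⟨-n, ?_, fun m hm => ?_⟩
  · change a - (y - lam C (-n)) ∈ F
    rw [lam_neg]
    rwa [show a - (y - -lam C n) = a - y - lam C n by abel]
  · have : -m = n := hu (-m) (by
      change a - y - lam C (-m) ∈ F
      rw [lam_neg]
      change a - (y - lam C m) ∈ F at hm
      rwa [show a - y - -lam C m = a - (y - lam C m) by abel])
    rw [← this, neg_neg]

/-- the exponential of the trace on the lower half of the standard domain -/
theorem exists_kappa : ∃ κ : ℝ, 0 < κ ∧ ∀ (a : ℝ) (z : ℂ), 0 < z.re →
    IntegrableOn (fun y : ι → ℝ => cexp (z * (∑ j, y j : ℝ))) (F0 C ∩ {y | ∑ j, y j ≤ a}) ∧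
    ∫ y in F0 C ∩ {y | ∑ j, y j ≤ a}, cexp (z * (∑ j, y j : ℝ)) = κ * (cexp (z * a) / z) := by
  classical
  let e : (ι → ℝ) ≃L[ℝ] (Option (Fin (rank K)) → ℝ) := (ub C).equivFunL
  have hc : (volume : Measure (ι → ℝ)).map e =
      Measure.addHaarScalarFactor ((volume : Measure (ι → ℝ)).map e) volume • volume :=
    Measure.isAddLeftInvariant_eq_smul _ _
  set c := Measure.addHaarScalarFactor ((volume : Measure (ι → ℝ)).map e) volume
  have hc0 : 0 < c := Measure.addHaarScalarFactor_pos_of_isAddHaarMeasure _ _
  refine ⟨c, by exact_mod_cast hc0, fun a z hz => ?_⟩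
  let f : Option (Fin (rank K)) → ℝ → ℂ := fun o =>
    o.elim ((Set.Iic a).indicator fun x => cexp (z * x)) fun _ =>
      (Set.Ico (0 : ℝ) 1).indicator fun _ => 1
  have hf : ∀ o, Integrable (f o) := by
    rintro (_ | i)
    · exact (integrable_indicator_iff measurableSet_Iic).2 (integrableOn_exp_mul_complex_Iic hz a)
    · exact (integrable_indicator_iff measurableSet_Ico).2 (integrableOn_const (by simp))
  have hm : MeasurableSet (F0 C ∩ {y | ∑ j, y j ≤ a}) :=
    (fd_F0 C).1.inter (measurableSet_le (by fun_prop) measurable_const)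
  have h1 : (F0 C ∩ {y | ∑ j, y j ≤ a}).indicator (fun y : ι → ℝ => cexp (z * (∑ j, y j : ℝ))) =
      fun y => ∏ o, f o (e y o) := by
    ext y
    have he : ∀ o, e y o = (ub C).repr y o := fun o => rfl
    simp only [Fintype.prod_option, he, ub_none, f, Option.elim]
    by_cases h : y ∈ F0 C
    · rw [prod_eq_one fun i _ => Set.indicator_of_mem (h i) _, mul_one]
      by_cases h' : ∑ j, y j ≤ a
      · rw [Set.indicator_of_mem (Set.mem_inter h h'), Set.indicator_of_mem (Set.mem_Iic.2 h')]
      · rw [Set.indicator_of_notMem (fun h'' => h' h''.2), Set.indicator_of_notMem (mt Set.mem_Iic.1 h')]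
    · rw [Set.indicator_of_notMem (fun h'' => h h''.1)]
      obtain ⟨i, hi⟩ := not_forall.1 h
      rw [prod_eq_zero (mem_univ i) (Set.indicator_of_notMem hi _), mul_zero]
  have h2 : Integrable (fun v : Option (Fin (rank K)) → ℝ => ∏ o, f o (v o))
      ((volume : Measure (ι → ℝ)).map e) := by
    rw [hc]
    exact (Integrable.fintype_prod hf).smul_measure_nnreal
  have hme : MeasurableEmbedding e := e.toHomeomorph.measurableEmbedding
  constructor
  · rw [← integrable_indicator_iff hm, h1]
    exact (hme.integrable_map_iff).1 h2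
  · rw [← integral_indicator hm, h1,
      ← hme.integral_map (fun v : Option (Fin (rank K)) → ℝ => ∏ o, f o (v o)), hc,
      integral_smul_nnreal_measure, integral_fintype_prod_volume_eq_prod, Fintype.prod_option]
    simp only [f, Option.elim]
    rw [integral_indicator measurableSet_Iic, integral_exp_mul_complex_Iic hz,
      integral_indicator measurableSet_Ico]
    simp [NNReal.smul_def]

/-- a totally complex field has a choice of embeddings -/
theorem exists_CM' (K : Type) [Field K] [NumberField K] [IsTotallyComplex K] :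
    Nonempty (CM K (InfinitePlace K)) := by
  refine ⟨⟨fun w => w.embedding, ?_, fun φ => ?_⟩⟩
  · have h : ∀ w w' : InfinitePlace K,
        w.embedding ≠ ComplexEmbedding.conjugate w'.embedding := by
      intro w w' h
      have h1 : w = w' := by
        rw [← w.mk_embedding, h, InfinitePlace.mk_conjugate_eq, InfinitePlace.mk_embedding]
      subst h1
      exact (InfinitePlace.isComplex_iff.1 (IsTotallyComplex.isComplex w))
        (ComplexEmbedding.isReal_iff.2 h.symm)
    rintro (w | w) (w' | w') hw <;> simp only [Sum.elim_inl, Sum.elim_inr] at hw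
    · rw [← w.mk_embedding, hw, InfinitePlace.mk_embedding]
    · exact (h _ _ hw).elim
    · exact (h _ _ hw.symm).elim
    · rw [← w.mk_embedding, ← InfinitePlace.mk_conjugate_eq, hw, InfinitePlace.mk_conjugate_eq,
        InfinitePlace.mk_embedding]
  · rcases InfinitePlace.embedding_mk_eq φ with h | h
    · exact ⟨Sum.inl (InfinitePlace.mk φ), h⟩
    · refine ⟨Sum.inr (InfinitePlace.mk φ), ?_⟩
      simp only [Sum.elim_inr, h]
      exact star_star φ

end Vale.Agent.P016Z.Pois
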