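import Vale.Agent.P267.H775.Gauss
import Vale.Agent.P016Z.TH.Emb
import Mathlib.RingTheory.Discriminant

/-!
P016, block POIS: Poisson summation for Gaussians over a lattice of a totally complex field.
-/

namespace Vale.Agent.P016Z.Pois

open NumberField Complex Finset Module Matrix TH
open scoped Real
open Vale.Agent.P267.H775

variable {K ι : Type} [Field K] [NumberField K] [Fintype ι] (C : CM K ι)
variable {κ : Type} [Fintype κ] [DecidableEq κ] (b : Basis κ ℚ K)

/-- the Gaussian `exp(-2 π ∑ t_j |z_j|²)` -/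
noncomputable def gs (t : ι → ℝ) (z : ι → ℂ) : ℝ := Real.exp (-(2 * π * ∑ j, t j * normSq (z j)))

omit [NumberField K] in
theorem gs_pos (t : ι → ℝ) (z : ι → ℂ) : 0 < gs t z := Real.exp_pos _

theorem gs_zero (t : ι → ℝ) : gs t 0 = 1 := by simp [gs]

/-- the lattice point with coordinates `n` -/
noncomputable def lat (n : κ → ℤ) : K := ∑ i, (n i : K) * b i

/-- the real matrix of the scaled embeddings -/
noncomputable def mat (t : ι → ℝ) (ε : ℝ) : Matrix (ι ⊕ ι) κ ℝ := fun j i =>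
  Sum.elim (fun j => √(2 * t j) * (C.sig j (b i)).re)
    (fun j => ε * √(2 * t j) * (C.sig j (b i)).im) j

omit [DecidableEq κ] in
include C b in
theorem card_eq' : Fintype.card κ = Fintype.card (ι ⊕ ι) := by
  rw [Fintype.card_sum, ← finrank_eq_card_basis b, ← C.card_eq, two_mul]

omit [DecidableEq κ] in
theorem qf_mat (e : κ ≃ ι ⊕ ι) {t : ι → ℝ} (ht : ∀ j, 0 < t j) {ε : ℝ} (hε : ε ^ 2 = 1)
    (x : κ → ℝ) :
    qf ((mat C b t ε).submatrix e id) x =
      2 * ∑ j, t j * normSq ((∑ i, x i • C.em (b i)) j) := by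
  unfold qf
  have h1 : ∀ i', (((mat C b t ε).submatrix e id) *ᵥ x) i' = ((mat C b t ε) *ᵥ x) (e i') :=
    fun i' => rfl
  simp_rw [h1]
  rw [e.sum_comp (fun j => ((mat C b t ε *ᵥ x) j) ^ 2), Fintype.sum_sum_type, ← sum_add_distrib,
    mul_sum]
  refine sum_congr rfl fun j _ => ?_
  have h2 : √(2 * t j) ^ 2 = 2 * t j := Real.sq_sqrt (by linarith [ht j])
  have h3 : (mat C b t ε *ᵥ x) (Sum.inl j) = √(2 * t j) * ((∑ i, x i • C.em (b i)) j).re := by
    simp only [mulVec, dotProduct, mat, Sum.elim_inl, Finset.sum_apply, Pi.smul_apply, re_sum,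
      CM.em_apply, real_smul, re_ofReal_mul, mul_sum]
    exact sum_congr rfl fun i _ => by ring
  have h4 : (mat C b t ε *ᵥ x) (Sum.inr j) = ε * √(2 * t j) * ((∑ i, x i • C.em (b i)) j).im := by
    simp only [mulVec, dotProduct, mat, Sum.elim_inr, Finset.sum_apply, Pi.smul_apply, im_sum,
      CM.em_apply, real_smul, im_ofReal_mul, mul_sum]
    exact sum_congr rfl fun i _ => by ring
  rw [h3, h4, normSq_apply, mul_pow, mul_pow, mul_pow, h2, hε]
  ring

omit [DecidableEq κ] [Fintype κ] in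
theorem mat_mul {κ' : Type} [Fintype κ'] (b' : Basis κ' ℚ K) {t : ι → ℝ} (ht : ∀ j, 0 < t j)
    (i : κ') (k : κ) :
    ((mat C b' t⁻¹ (-1))ᵀ * mat C b t 1) i k = pr (C.em (b' i)) (C.em (b k)) := by
  simp only [Matrix.mul_apply, transpose_apply, Fintype.sum_sum_type, mat, Sum.elim_inl,
    Sum.elim_inr, pr, ← sum_add_distrib, CM.em_apply, mul_re]
  refine sum_congr rfl fun j _ => ?_
  have h1 : √(2 * t⁻¹ j) * √(2 * t j) = 2 := by
    rw [← Real.sqrt_mul (by have := ht j; simp only [Pi.inv_apply]; positivity)]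
    have : 2 * t⁻¹ j * (2 * t j) = 2 ^ 2 := by
      have := (ht j).ne'
      simp only [Pi.inv_apply]; field_simp
    rw [this, Real.sqrt_sq (by norm_num)]
  linear_combination ((C.sig j (b' i)).re * (C.sig j (b k)).re -
    (C.sig j (b' i)).im * (C.sig j (b k)).im) * h1

omit [DecidableEq κ] in
theorem sub_mul_sub (e : κ ≃ ι ⊕ ι) (A B : Matrix (ι ⊕ ι) κ ℝ) :
    (A.submatrix e id)ᵀ * B.submatrix e id = Aᵀ * B := by
  ext i k
  simp only [Matrix.mul_apply, transpose_apply, submatrix_apply, id]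
  exact e.sum_comp (fun j => A j i * B j k)

theorem mat_inv (e : κ ≃ ι ⊕ ι) {t : ι → ℝ} (ht : ∀ j, 0 < t j) :
    ((mat C b.traceDual t⁻¹ (-1)).submatrix e id)ᵀ * (mat C b t 1).submatrix e id = 1 := by
  rw [sub_mul_sub]
  ext i k
  rw [mat_mul C b _ ht, C.pr_dual, Matrix.one_apply]
  simp only [eq_comm]

theorem det_mat_scale [DecidableEq ι] (e : κ ≃ ι ⊕ ι) {t : ι → ℝ} (ht : ∀ j, 0 < t j) (ε : ℝ) :
    ((mat C b t ε).submatrix e id).det =
      (∏ j, t j) * ε ^ Fintype.card ι * ((mat C b 1 1).submatrix e id).det := by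
  have h1 : (mat C b t ε).submatrix e id =
      Matrix.diagonal (fun i => Sum.elim (fun j => √(t j)) (fun j => ε * √(t j)) (e i)) *
        (mat C b 1 1).submatrix e id := by
    ext i k
    rw [diagonal_mul]
    simp only [submatrix_apply, id, mat]
    rcases e i with j | j
    · simp only [Sum.elim_inl, Pi.one_apply, mul_one]
      rw [Real.sqrt_mul (by norm_num)]; ring
    · simp only [Sum.elim_inr, Pi.one_apply, mul_one]
      rw [Real.sqrt_mul (by norm_num)]; ring
  rw [h1, det_mul, det_diagonal,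
    e.prod_comp (Sum.elim (fun j => √(t j)) (fun j => ε * √(t j))), Fintype.prod_sum_type]
  simp only [Sum.elim_inl, Sum.elim_inr, prod_mul_distrib, prod_const, card_univ]
  congr 1
  rw [mul_left_comm, ← prod_mul_distrib, mul_comm]
  congr 1
  exact prod_congr rfl fun j _ => Real.mul_self_sqrt (ht j).le

theorem abs_det_mat [DecidableEq ι] (e : κ ≃ ι ⊕ ι) {t : ι → ℝ} (ht : ∀ j, 0 < t j) :
    |((mat C b t 1).submatrix e id).det| =
      √|((Algebra.discr ℚ b : ℚ) : ℝ)| * ∏ j, t j := by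
  have h0 : ∀ j, 0 < (1 : ι → ℝ) j := fun _ => one_pos
  have h1 : ((mat C b 1 (-1)).submatrix e id)ᵀ * (mat C b 1 1).submatrix e id =
      (Algebra.traceMatrix ℚ b).map (fun x : ℚ => (x : ℝ)) := by
    rw [sub_mul_sub]
    ext i k
    have := mat_mul C b b h0 i k
    rw [inv_one] at this
    rw [this, C.pr_em, map_apply, Algebra.traceMatrix_apply, Algebra.traceForm_apply]
  have h2 := congrArg Matrix.det h1
  rw [det_mul, det_transpose, det_mat_scale C b e h0 (-1)] at h2
  have h3 : ((Algebra.traceMatrix ℚ b).map (fun x : ℚ => (x : ℝ))).det =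
      ((Algebra.discr ℚ b : ℚ) : ℝ) := by
    rw [Algebra.discr_def]
    exact ((Rat.castHom ℝ).map_det _).symm
  rw [det_mat_scale C b e ht 1, one_pow, mul_one, abs_mul,
    abs_of_pos (prod_pos fun j _ => ht j), mul_comm, ← h3, ← h2]
  congr 1
  simp only [Pi.one_apply, prod_const_one, one_mul, abs_mul, abs_pow, abs_neg, abs_one, one_pow]
  rw [Real.sqrt_mul_self (abs_nonneg _)]

omit [DecidableEq κ] [Fintype ι] in
theorem em_lat (n : κ → ℤ) : C.em (lat b n) = ∑ i, toR n i • C.em (b i) := by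
  rw [lat, map_sum]
  refine sum_congr rfl fun i _ => ?_
  rw [map_mul, map_intCast]
  ext j
  simp

theorem discr_ne : ((Algebra.discr ℚ b : ℚ) : ℝ) ≠ 0 := by
  exact_mod_cast Algebra.discr_not_zero_of_basis ℚ b

theorem gau_mat (e : κ ≃ ι ⊕ ι) {t : ι → ℝ} (ht : ∀ j, 0 < t j) {ε : ℝ} (hε : ε ^ 2 = 1)
    (x : κ → ℝ) :
    gau ((mat C b t ε).submatrix e id) I x = (gs t (∑ i, x i • C.em (b i)) : ℂ) := by
  rw [gau_apply, qf_mat C b e ht hε, gs, ofReal_exp]
  congr 1
  push_cast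
  linear_combination (2 * π * ∑ j, (t j : ℂ) * (normSq ((∑ i, x i • C.em (b i)) j) : ℝ)) * I_mul_I

theorem shift_eq (a : ι → ℂ) (n : κ → ℤ) :
    ∑ i, (((C.bas b).repr a : κ → ℝ) + toR n) i • C.em (b i) = a + C.em (lat b n) := by
  simp only [Pi.add_apply, add_smul, sum_add_distrib, em_lat]
  congr 1
  conv_rhs => rw [← (C.bas b).sum_repr a]
  simp only [CM.bas_apply]

theorem summable_gs {t : ι → ℝ} (ht : ∀ j, 0 < t j) (a : ι → ℂ) :
    Summable fun n : κ → ℤ => gs t (a + C.em (lat b n)) := by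
  classical
  let e : κ ≃ ι ⊕ ι := Fintype.equivOfCardEq (card_eq' C b)
  have hdet : ((mat C b t 1).submatrix e id).det ≠ 0 := by
    rw [← abs_pos, abs_det_mat C b e ht]
    exact mul_pos (Real.sqrt_pos.2 (abs_pos.2 (discr_ne b))) (prod_pos fun j _ => ht j)
  have h1 := (locSum_gau _ hdet (τ := I) (by simp)).summable ((C.bas b).repr a)
  simp_rw [gau_mat C b e ht (one_pow 2), shift_eq] at h1
  exact summable_ofReal.1 h1

/-- **Poisson summation** for Gaussians over the lattice spanned by `b`. -/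
theorem poisson_gs {t : ι → ℝ} (ht : ∀ j, 0 < t j) (a : ι → ℂ) :
    HasSum (fun k : κ → ℤ => (gs t⁻¹ (C.em (lat b.traceDual k)) : ℂ) *
        C.ch (lat b.traceDual k) a)
      (((√|((Algebra.discr ℚ b : ℚ) : ℝ)| * ∏ j, t j : ℝ) : ℂ) *
        ((∑' n : κ → ℤ, gs t (a + C.em (lat b n)) : ℝ) : ℂ)) := by
  classical
  let e : κ ≃ ι ⊕ ι := Fintype.equivOfCardEq (card_eq' C b)
  set M := (mat C b t 1).submatrix e id with hM
  set V : ℝ := √|((Algebra.discr ℚ b : ℚ) : ℝ)| * ∏ j, t j with hV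
  have hV0 : 0 < V := mul_pos (Real.sqrt_pos.2 (abs_pos.2 (discr_ne b))) (prod_pos fun j _ => ht j)
  have habs : |M.det| = V := abs_det_mat C b e ht
  have hdet : M.det ≠ 0 := by rw [← abs_pos, habs]; exact hV0
  have ht' : ∀ j, 0 < t⁻¹ j := fun j => inv_pos.2 (ht j)
  have hinv : (M⁻¹)ᵀ = (mat C b.traceDual t⁻¹ (-1)).submatrix e id := by
    rw [Matrix.inv_eq_left_inv (mat_inv C b e ht), transpose_transpose]
  have hfc : ∀ k : κ → ℤ, fc (gau M I) k =
      ((V⁻¹ : ℝ) : ℂ) * (gs t⁻¹ (C.em (lat b.traceDual k)) : ℂ) := by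
    intro k
    rw [fc_gau M hdet (by simp), habs, div_self I_ne_zero, one_cpow, one_mul, hinv]
    have h1 : (-1 / I : ℂ) = I := by rw [div_I]; ring
    rw [h1, ← gau_apply, gau_mat C b.traceDual e ht' (by norm_num), em_lat]
  have hsum : Summable (fc (gau M I : (κ → ℝ) → ℂ)) := by
    have h1 := summable_gs C b.traceDual ht' 0
    simp only [zero_add] at h1
    refine ((summable_ofReal.2 h1).mul_left ((V⁻¹ : ℝ) : ℂ)).congr fun k => (hfc k).symm
  have hp := (poisson (gau M I) (locSum_gau M hdet (by simp)) (integrable_gau M hdet (by simp))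
    hsum ((C.bas b).repr a)).mul_left (V : ℂ)
  have h2 : ∀ n : κ → ℤ, gau M I ((C.bas b).repr a + toR n) =
      (gs t (a + C.em (lat b n)) : ℂ) := fun n => by
    rw [hM, gau_mat C b e ht (one_pow 2), shift_eq]
  simp_rw [h2] at hp
  rw [← ofReal_tsum] at hp
  have h3 : ∀ k : κ → ℤ, (V : ℂ) * (fc (gau M I) k * chr k ((C.bas b).repr a)) =
      (gs t⁻¹ (C.em (lat b.traceDual k)) : ℂ) * C.ch (lat b.traceDual k) a := by
    intro k
    have h4 : chr k ((C.bas b).repr a) = C.ch (lat b.traceDual k) a := by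
      rw [chr, CM.ch, ee, em_lat, pr_comm]
      congr 2
      have h5 := map_sum (prL a) (fun i => toR k i • C.em (b.traceDual i)) univ
      change pr a _ = _ at h5
      rw [h5]
      push_cast
      refine sum_congr rfl fun i _ => ?_
      rw [map_smul, C.bas_repr, pr_comm]
      simp [prL]
    have h6 : (V : ℂ) ≠ 0 := by exact_mod_cast hV0.ne'
    rw [hfc, h4]
    push_cast
    field_simp
  simpa only [h3] using hp

end Vale.Agent.P016Z.Pois
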