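import Vale.Agent.P016Z.Pois.Unfold
import Mathlib.Analysis.Calculus.ParametricIntegral

/-!
P016, block HECKE: continuation of the theta integral of one class.
-/

namespace Vale.Agent.P016Z.Pois

open NumberField NumberField.Units Complex Finset Module TH MeasureTheory
open scoped Real nonZeroDivisors

theorem abs_mul_exp_le {u σ ε x : ℝ} (hε : 0 < ε) (hx : |x - σ| < ε) :
    |u| * Real.exp (x * u) ≤
      ε⁻¹ * (Real.exp ((σ + 2 * ε) * u) + Real.exp ((σ - 2 * ε) * u)) := by
  have h1 : |u| ≤ ε⁻¹ * Real.exp (ε * |u|) := by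
    rw [le_inv_mul_iff₀ hε]
    linarith [Real.add_one_le_exp (ε * |u|)]
  rw [abs_lt] at hx
  have h2 : Real.exp (ε * |u|) * Real.exp (x * u) ≤
      Real.exp ((σ + 2 * ε) * u) + Real.exp ((σ - 2 * ε) * u) := by
    rw [← Real.exp_add]
    rcases le_total 0 u with h | h
    · rw [abs_of_nonneg h]
      refine le_add_of_le_of_nonneg (Real.exp_le_exp.2 (by nlinarith)) (Real.exp_pos _).le
    · rw [abs_of_nonpos h]
      refine le_add_of_nonneg_of_le (Real.exp_pos _).le (Real.exp_le_exp.2 (by nlinarith))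
  calc |u| * Real.exp (x * u) ≤ ε⁻¹ * Real.exp (ε * |u|) * Real.exp (x * u) := by gcongr
    _ ≤ _ := by rw [mul_assoc]; gcongr

/-- holomorphy of a Laplace type integral -/
theorem diff_param {Y : Type} [MeasurableSpace Y] {μ : Measure Y} {u : Y → ℝ} {φ : Y → ℂ}
    (hu : Measurable u) (hφ : Measurable φ)
    (h : ∀ σ : ℝ, 0 < σ → Integrable (fun y => Real.exp (σ * u y) * ‖φ y‖) μ) :
    DifferentiableOn ℂ (fun s : ℂ => ∫ y, cexp (s * u y) * φ y ∂μ) {s | 0 < s.re} := by
  intro s hs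
  have hs0 : 0 < s.re := hs
  have hε : 0 < s.re / 3 := by linarith
  have hn : ∀ (x : ℂ) (y : Y), ‖cexp (x * u y) * φ y‖ = Real.exp (x.re * u y) * ‖φ y‖ := by
    intro x y
    rw [norm_mul, norm_exp, re_mul_ofReal]
  have key := hasDerivAt_integral_of_dominated_loc_of_deriv_le (μ := μ)
    (F := fun (x : ℂ) y => cexp (x * u y) * φ y)
    (F' := fun (x : ℂ) y => (u y : ℂ) * (cexp (x * u y) * φ y))
    (bound := fun y => (s.re / 3)⁻¹ * (Real.exp ((s.re + 2 * (s.re / 3)) * u y) * ‖φ y‖ +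
      Real.exp ((s.re - 2 * (s.re / 3)) * u y) * ‖φ y‖))
    (Metric.ball_mem_nhds s hε)
    (Filter.Eventually.of_forall fun x => Measurable.aestronglyMeasurable (by fun_prop))
    ((h _ hs0).mono' (Measurable.aestronglyMeasurable (by fun_prop))
      (ae_of_all _ fun y => (hn s y).le))
    (Measurable.aestronglyMeasurable (by fun_prop))
    (ae_of_all _ fun y x hx => by
      rw [norm_mul, hn, norm_real, Real.norm_eq_abs, ← mul_assoc, ← add_mul, ← mul_assoc]
      refine mul_le_mul_of_nonneg_right (abs_mul_exp_le hε ?_) (norm_nonneg _)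
      rw [← sub_re]
      exact (abs_re_le_norm _).trans_lt (mem_ball_iff_norm.1 hx))
    (((h _ (by linarith)).add (h _ (by linarith))).const_mul _)
    (ae_of_all _ fun y x _ => by
      have h1 := (((hasDerivAt_id x).mul_const (u y : ℂ)).cexp).mul_const (φ y)
      simp only [id, one_mul] at h1
      rwa [show (u y : ℂ) * (cexp (x * u y) * φ y) = cexp (x * u y) * u y * φ y by ring])
  exact key.2.differentiableAt.differentiableWithinAt

variable {K ι : Type} [Field K] [NumberField K] [Fintype ι] (C : CM K ι)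

/-- the real theta series without the zero term -/
noncomputable def thr (A : FI K) (y : ι → ℝ) : ℝ := ∑' x : Nz A, gs (ex y) (C.em x)

theorem thr_nonneg (A : FI K) (y : ι → ℝ) : 0 ≤ thr C A y :=
  tsum_nonneg fun _ => (gs_pos _ _).le

theorem th_one (A : FI K) (y : ι → ℝ) : th C A (fun _ => 1) y = thr C A y := by
  simp only [th, thr, one_mul, ofReal_tsum]

theorem measurable_thr (A : FI K) : Measurable (thr C A) := by
  refine Measurable.tsum fun x => ?_
  unfold gs ex
  fun_prop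

/-- the class zeta value at `2` -/
noncomputable def zr (A : FI K) : ℝ := ∑' I : Cl A, ((Ideal.absNorm I.1 : ℝ) ^ 2)⁻¹

theorem zr_nonneg (A : FI K) : 0 ≤ zr A := tsum_nonneg fun _ => by positivity

theorem zc_two (A : FI K) : zc A (fun _ => 1) 2 = zr A := by
  simp only [zc, zr, one_mul, ofReal_tsum, cpow_neg]
  refine tsum_congr fun I => ?_
  push_cast
  rw [← cpow_natCast]
  norm_num

/-- the theta integral at `2` -/
noncomputable def RR (K ι : Type) [Field K] [NumberField K] [Fintype ι] (A : FI K) : ℝ :=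
  torsionOrder K * ((1 / (2 * π)) ^ 2) ^ Fintype.card ι * (nrm A ^ 2)⁻¹ * zr A

theorem unfold_two {F : Set (ι → ℝ)} (hF : FD C F) (A : FI K) :
    IntegrableOn (fun y => Real.exp (2 * ∑ j, y j) * thr C A y) F ∧
    ∫ y in F, Real.exp (2 * ∑ j, y j) * thr C A y = RR K ι A := by
  obtain ⟨h1, h2⟩ := unfold_th C hF A (w := fun _ => 1) (B := 1) (by simp) (s := 2) (by simp)
  have h3 : (fun y : ι → ℝ => cexp (2 * (∑ j, y j : ℝ)) * th C A (fun _ => 1) y) =
      fun y => ((Real.exp (2 * ∑ j, y j) * thr C A y : ℝ) : ℂ) := by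
    ext y
    rw [th_one, ofReal_mul, ofReal_exp, ofReal_mul]
    rfl
  rw [h3] at h1 h2
  refine ⟨h1.re, ?_⟩
  rw [integral_complex_ofReal, zc_two] at h2
  apply ofReal_injective
  rw [h2, RR]
  have h4 : cexp (-2 * Real.log (nrm A)) = (((nrm A ^ 2)⁻¹ : ℝ) : ℂ) := by
    rw [← Real.exp_log (show 0 < (nrm A ^ 2)⁻¹ by have := nrm_pos A; positivity), ofReal_exp,
      Real.log_inv, Real.log_pow]
    push_cast
    ring_nf
  have h5 : Gamma 2 = 1 := by simp
  rw [h4, h5, cpow_two]
  push_cast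
  ring

theorem unfold_neg (A : FI K) (b : ι → ℝ) :
    IntegrableOn (fun y => Real.exp (2 * ∑ j, (b - y) j) * thr C A (b - y)) (F0 C) ∧
    ∫ y in F0 C, Real.exp (2 * ∑ j, (b - y) j) * thr C A (b - y) = RR K ι A := by
  have hF := (fd_F0 C).neg C b
  obtain ⟨h1, h2⟩ := unfold_two C hF A
  rw [← integrable_indicator_iff hF.1] at h1
  rw [← integral_indicator hF.1] at h2
  have h3 : (F0 C).indicator (fun y => Real.exp (2 * ∑ j, (b - y) j) * thr C A (b - y)) =
      fun y => {y | b - y ∈ F0 C}.indicator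
        (fun y => Real.exp (2 * ∑ j, y j) * thr C A y) (b - y) := by
    ext y
    by_cases hy : y ∈ F0 C
    · rw [Set.indicator_of_mem hy, Set.indicator_of_mem (by simpa using hy)]
    · rw [Set.indicator_of_notMem hy, Set.indicator_of_notMem (by simpa using hy)]
  rw [← integrable_indicator_iff (fd_F0 C).1, ← integral_indicator (fd_F0 C).1, h3,
    integral_sub_left_eq_self _ volume b]
  exact ⟨h1.comp_sub_left b, h2⟩

/-- the lower half of the standard domain -/
def Sm (a : ℝ) : Set (ι → ℝ) := F0 C ∩ {y | ∑ j, y j ≤ a}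

/-- the upper half of the standard domain -/
def Sp (a : ℝ) : Set (ι → ℝ) := F0 C \ {y | ∑ j, y j ≤ a}

theorem measurableSet_half (a : ℝ) : MeasurableSet {y : ι → ℝ | ∑ j, y j ≤ a} :=
  measurableSet_le (by fun_prop) measurable_const

theorem measurableSet_Sm (a : ℝ) : MeasurableSet (Sm C a) :=
  (fd_F0 C).1.inter (measurableSet_half a)

theorem measurableSet_Sp (a : ℝ) : MeasurableSet (Sp C a) :=
  (fd_F0 C).1.diff (measurableSet_half a)

/-- the upper integral -/
noncomputable def Pp (A : FI K) (w : ℕ → ℂ) (a : ℝ) (s : ℂ) : ℂ :=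
  ∫ y in Sp C a, cexp (s * (∑ j, y j : ℝ)) * th C A w y

/-- the theta series minus its main term at the cusp `0` -/
noncomputable def rem (A : FI K) (w : ℕ → ℂ) (c : ℂ) (y : ι → ℝ) : ℂ :=
  th C A w y + w 0 - c * cexp (-(∑ j, y j : ℝ))

/-- the lower integral -/
noncomputable def Mm (A : FI K) (w : ℕ → ℂ) (c : ℂ) (a : ℝ) (s : ℂ) : ℂ :=
  ∫ y in Sm C a, cexp (s * (∑ j, y j : ℝ)) * rem C A w c y

theorem measurable_rem (A : FI K) (w : ℕ → ℂ) (c : ℂ) : Measurable (rem C A w c) := by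
  have := measurable_th C A w
  unfold rem
  fun_prop

theorem diff_Pp (A : FI K) {w : ℕ → ℂ} {B : ℝ} (hw : ∀ n, ‖w n‖ ≤ B) (a : ℝ) :
    DifferentiableOn ℂ (Pp C A w a) {s | 0 < s.re} := by
  refine diff_param (by fun_prop) (measurable_th C A w) fun σ _ => ?_
  have h1 := (unfold_th C (fd_F0 C) A hw (s := (max σ 2 : ℝ))
    (by simp only [ofReal_re]; linarith [le_max_right σ 2])).1.mono_set
      (Set.sdiff_subset (t := {y | ∑ j, y j ≤ a}))
  have h2 := measurable_th C A w
  refine (h1.norm.const_mul (Real.exp ((σ - max σ 2) * a))).mono'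
    (Measurable.aestronglyMeasurable (by fun_prop)) ?_
  filter_upwards [ae_restrict_mem (measurableSet_Sp C a)] with y hy
  have h3 : a ≤ ∑ j, y j := (not_le.1 hy.2).le
  rw [Real.norm_of_nonneg (by positivity), norm_mul, norm_exp, re_mul_ofReal, ofReal_re,
    ← mul_assoc, ← Real.exp_add]
  refine mul_le_mul_of_nonneg_right (Real.exp_le_exp.2 ?_) (norm_nonneg _)
  nlinarith [le_max_left σ 2]

theorem integrable_rem (A A' : FI K) (w : ℕ → ℂ) (c : ℂ) {B' : ℝ} (b : ι → ℝ) (hB : 0 ≤ B')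
    (hP : ∀ y, ‖rem C A w c y‖ ≤ B' * Real.exp (-∑ j, y j) * thr C A' (b - y)) (a : ℝ) {σ : ℝ}
    (hσ : 0 < σ) :
    Integrable (fun y => Real.exp (σ * ∑ j, y j) * ‖rem C A w c y‖)
      (volume.restrict (Sm C a)) := by
  have h1 := (unfold_neg C A' b).1.mono_set (Set.inter_subset_left (t := {y | ∑ j, y j ≤ a}))
  have h2 := measurable_rem C A w c
  refine (h1.const_mul (B' * Real.exp ((σ + 1) * a - 2 * ∑ j, b j))).mono'
    (Measurable.aestronglyMeasurable (by fun_prop)) ?_
  filter_upwards [ae_restrict_mem (measurableSet_Sm C a)] with y hy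
  have h3 : ∑ j, y j ≤ a := hy.2
  rw [Real.norm_of_nonneg (by positivity)]
  refine (mul_le_mul_of_nonneg_left (hP y) (Real.exp_pos _).le).trans ?_
  have h4 : Real.exp (σ * ∑ j, y j) * Real.exp (-∑ j, y j) ≤
      Real.exp ((σ + 1) * a - 2 * ∑ j, b j) * Real.exp (2 * ∑ j, (b - y) j) := by
    rw [← Real.exp_add, ← Real.exp_add]
    simp only [Pi.sub_apply, sum_sub_distrib]
    exact Real.exp_le_exp.2 (by nlinarith)
  have h5 := mul_le_mul_of_nonneg_left h4 (mul_nonneg hB (thr_nonneg C A' (b - y)))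
  linarith

theorem diff_Mm (A A' : FI K) (w : ℕ → ℂ) (c : ℂ) {B' : ℝ} (b : ι → ℝ) (hB : 0 ≤ B')
    (hP : ∀ y, ‖rem C A w c y‖ ≤ B' * Real.exp (-∑ j, y j) * thr C A' (b - y)) (a : ℝ) :
    DifferentiableOn ℂ (Mm C A w c a) {s | 0 < s.re} :=
  diff_param (by fun_prop) (measurable_rem C A w c) fun _ hσ =>
    integrable_rem C A A' w c b hB hP a hσ

/-- the constant of the standard domain -/
noncomputable def kap : ℝ := (exists_kappa C).choose

theorem kap_pos : 0 < kap C := (exists_kappa C).choose_spec.1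

theorem split_eq (A A' : FI K) {w : ℕ → ℂ} {B : ℝ} (hw : ∀ n, ‖w n‖ ≤ B) (c : ℂ) {B' : ℝ}
    (b : ι → ℝ) (hB : 0 ≤ B')
    (hP : ∀ y, ‖rem C A w c y‖ ≤ B' * Real.exp (-∑ j, y j) * thr C A' (b - y)) (a : ℝ) {s : ℂ}
    (hs : 1 < s.re) :
    torsionOrder K * ((1 / (2 * π)) ^ s * Gamma s) ^ Fintype.card ι *
        cexp (-s * Real.log (nrm A)) * zc A w s =
      Pp C A w a s + Mm C A w c a s + c * (kap C * (cexp ((s - 1) * a) / (s - 1))) -
        w 0 * (kap C * (cexp (s * a) / s)) := by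
  obtain ⟨h1, h2⟩ := unfold_th C (fd_F0 C) A hw hs
  obtain ⟨h3, h4⟩ := (exists_kappa C).choose_spec.2 a s (by linarith)
  obtain ⟨h5, h6⟩ := (exists_kappa C).choose_spec.2 a (s - 1) (by simp; linarith)
  have h7 : Integrable (fun y => cexp (s * (∑ j, y j : ℝ)) * rem C A w c y)
      (volume.restrict (Sm C a)) := by
    have := measurable_rem C A w c
    refine (integrable_rem C A A' w c b hB hP a (σ := s.re) (by linarith)).mono'
      (Measurable.aestronglyMeasurable (by fun_prop)) (ae_of_all _ fun y => ?_)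
    rw [norm_mul, norm_exp, re_mul_ofReal]
  rw [← h2, ← integral_inter_add_sdiff (measurableSet_half a) h1, kap, ← h4, ← h6,
    ← integral_const_mul, ← integral_const_mul, Mm, Pp, add_comm, add_assoc, add_sub_assoc]
  congr 1
  unfold Sm at h7 ⊢
  rw [← integral_add h7 (h5.const_mul c)]
  refine Eq.trans ?_ (integral_sub (h7.add (h5.const_mul c)) (h3.const_mul (w 0)))
  refine integral_congr_ae (ae_of_all _ fun y => ?_)
  have h8 : cexp ((s - 1) * (∑ j, y j : ℝ)) =
      cexp (s * (∑ j, y j : ℝ)) * cexp (-(∑ j, y j : ℝ)) := by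
    rw [← Complex.exp_add]; congr 1; ring
  simp only [rem, h8]
  ring

end Vale.Agent.P016Z.Pois
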