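import Vale.Agent.P016Z.Pois.Basic
import Mathlib.NumberTheory.NumberField.FractionalIdeal
import Mathlib.NumberTheory.NumberField.Discriminant.Different

/-!
P016, block POIS: Poisson summation for Gaussians over a fractional ideal.
-/

namespace Vale.Agent.P016Z.Pois

open NumberField Complex Finset Module Matrix TH
open scoped Real nonZeroDivisors

variable {K ι : Type} [Field K] [NumberField K] [Fintype ι] (C : CM K ι)

/-- nonzero fractional ideals -/
abbrev FI (K : Type) [Field K] [NumberField K] : Type := (FractionalIdeal (𝓞 K)⁰ K)ˣ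

/-- the trace dual -/
noncomputable def dl (A : FI K) : FI K :=
  Units.mk0 (FractionalIdeal.dual ℤ ℚ (A : FractionalIdeal (𝓞 K)⁰ K))
    (FractionalIdeal.dual_ne_zero ℤ ℚ A.ne_zero)

/-- the norm of a fractional ideal -/
noncomputable def nrm (A : FI K) : ℝ :=
  ((FractionalIdeal.absNorm (A : FractionalIdeal (𝓞 K)⁰ K) : ℚ) : ℝ)

theorem nrm_pos (A : FI K) : 0 < nrm A := by
  have h1 := FractionalIdeal.absNorm_nonneg (A : FractionalIdeal (𝓞 K)⁰ K)
  have h2 : FractionalIdeal.absNorm (A : FractionalIdeal (𝓞 K)⁰ K) ≠ 0 := fun h =>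
    A.ne_zero (FractionalIdeal.absNorm_eq_zero_iff.1 h)
  unfold nrm
  exact_mod_cast lt_of_le_of_ne h1 h2.symm

theorem nrm_one : nrm (1 : FI K) = 1 := by simp [nrm]

theorem abs_discr_pos : (0 : ℝ) < |(discr K : ℝ)| :=
  abs_pos.2 (by exact_mod_cast discr_ne_zero K)

/-- the covolume -/
noncomputable def vol (A : FI K) : ℝ := √|(discr K : ℝ)| * nrm A

theorem vol_pos (A : FI K) : 0 < vol A := mul_pos (Real.sqrt_pos.2 abs_discr_pos) (nrm_pos A)

theorem dl_eq (A : FI K) : dl A = dl 1 * A⁻¹ := by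
  ext1
  simp only [dl, Units.val_mk0, Units.val_mul, Units.val_one, Units.val_inv_eq_inv_val]
  exact FractionalIdeal.dual_eq_mul_inv ℤ ℚ _

theorem nrm_dl (A : FI K) : nrm (dl A) = (|(discr K : ℝ)| * nrm A)⁻¹ := by
  have h1 := congrArg FractionalIdeal.absNorm
    (coeIdeal_differentIdeal (A := ℤ) (K := ℚ) (L := K) (B := 𝓞 K))
  rw [FractionalIdeal.coeIdeal_absNorm, absNorm_differentIdeal K, map_inv₀] at h1
  have h2 : nrm (dl (1 : FI K)) = |(discr K : ℝ)|⁻¹ := by
    simp only [nrm, dl, Units.val_mk0, Units.val_one]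
    rw [← inv_inv (FractionalIdeal.absNorm _), ← h1]
    simp
  rw [dl_eq, mul_inv, ← h2]
  simp [nrm]

theorem vol_dl (A : FI K) : vol (dl A) = (vol A)⁻¹ := by
  have h1 := Real.mul_self_sqrt (abs_discr_pos (K := K)).le
  have h2 := (Real.sqrt_pos.2 (abs_discr_pos (K := K))).ne'
  have h3 := (nrm_pos A).ne'
  rw [vol, vol, nrm_dl, ← h1, Real.sqrt_mul_self (Real.sqrt_nonneg _)]
  field_simp

/-- the elements of a fractional ideal -/
abbrev El (A : FI K) : Type := {x : K // x ∈ (A : FractionalIdeal (𝓞 K)⁰ K)}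

section

variable {κ : Type} [Fintype κ] (b : Basis κ ℚ K) (A : FI K)
  (hb : ∀ x : K, x ∈ Submodule.span ℤ (Set.range b) ↔ x ∈ (A : FractionalIdeal (𝓞 K)⁰ K))

/-- coordinates on a fractional ideal -/
noncomputable def latE : (κ → ℤ) ≃ El A :=
  Equiv.ofBijective (fun n => ⟨lat b n, (hb _).1 (Submodule.sum_mem _ fun i _ => by
      rw [← zsmul_eq_mul]
      exact Submodule.smul_mem _ _ (Submodule.subset_span ⟨i, rfl⟩))⟩) (by
    constructor
    · intro n m h
      have h1 : lat b n = lat b m := congrArg Subtype.val h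
      have h2 : ∀ n : κ → ℤ, lat b n = b.equivFun.symm fun i => (n i : ℚ) := fun n => by
        simp [lat, Algebra.smul_def]
      rw [h2, h2] at h1
      have h3 := b.equivFun.symm.injective h1
      ext i
      exact_mod_cast congrFun h3 i
    · rintro ⟨x, hx⟩
      obtain ⟨c, hc⟩ := (Submodule.mem_span_range_iff_exists_fun ℤ).1 ((hb x).2 hx)
      exact ⟨c, Subtype.ext (by simpa [lat] using hc)⟩)

theorem latE_apply (n : κ → ℤ) : (latE b A hb n : K) = lat b n := rfl

include hb in
theorem dual_span [DecidableEq κ] (x : K) : x ∈ Submodule.span ℤ (Set.range b.traceDual) ↔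
    x ∈ (dl A : FractionalIdeal (𝓞 K)⁰ K) := by
  have h := Submodule.traceDual_span_of_basis (A := ℤ) (K := ℚ) (L := K) (B := 𝓞 K)
    (A : FractionalIdeal (𝓞 K)⁰ K) b (by ext y; exact (hb y).symm)
  rw [← h, ← FractionalIdeal.coe_dual ℤ ℚ A.ne_zero]
  rfl

end

instance (A : FI K) : Countable (El A) :=
  (latE (basisOfFractionalIdeal K A) A fun _ => mem_span_basisOfFractionalIdeal K).symm.injective.countable

open Classical in
theorem sqrt_discr_basis (A : FI K) :
    √|((Algebra.discr ℚ (basisOfFractionalIdeal K A) : ℚ) : ℝ)| = vol A := by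
  let e : Free.ChooseBasisIndex ℤ (𝓞 K) ≃ Free.ChooseBasisIndex ℤ A :=
    (integralBasis K).indexEquiv (basisOfFractionalIdeal K A)
  have h1 := det_basisOfFractionalIdeal_eq_absNorm K A e
  set b' := (basisOfFractionalIdeal K A).reindex e.symm with hb'
  have h2 : Algebra.discr ℚ (basisOfFractionalIdeal K A) = Algebra.discr ℚ b' := by
    rw [hb', Basis.coe_reindex, Algebra.discr_reindex]
  have h3 := Algebra.discr_of_matrix_vecMul (integralBasis K) ((integralBasis K).toMatrix b')
  rw [Basis.toMatrix_map_vecMul, ← Basis.det_apply, ← coe_discr] at h3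
  rw [h2, h3, vol, nrm, ← h1]
  push_cast
  rw [abs_mul, Real.sqrt_mul (abs_nonneg _), abs_pow, Real.sqrt_sq (abs_nonneg _), mul_comm]

theorem summable_El (A : FI K) {t : ι → ℝ} (ht : ∀ j, 0 < t j) (a : ι → ℂ) :
    Summable fun x : El A => gs t (a + C.em x) := by
  classical
  rw [← (latE (basisOfFractionalIdeal K A) A
    fun _ => mem_span_basisOfFractionalIdeal K).summable_iff]
  exact summable_gs C _ ht a

/-- **Poisson summation** over a fractional ideal. -/
theorem poisson_El (A : FI K) {t : ι → ℝ} (ht : ∀ j, 0 < t j) (a : ι → ℂ) :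
    HasSum (fun ξ : El (dl A) => (gs t⁻¹ (C.em ξ) : ℂ) * C.ch ξ a)
      (((vol A * ∏ j, t j : ℝ) : ℂ) * ((∑' x : El A, gs t (a + C.em x) : ℝ) : ℂ)) := by
  classical
  have hb : ∀ x : K, x ∈ Submodule.span ℤ (Set.range (basisOfFractionalIdeal K A)) ↔
      x ∈ (A : FractionalIdeal (𝓞 K)⁰ K) := fun _ => mem_span_basisOfFractionalIdeal K
  have h := poisson_gs C (basisOfFractionalIdeal K A) ht a
  rw [sqrt_discr_basis] at h
  rw [← (latE _ (dl A) (dual_span _ A hb)).hasSum_iff, ← (latE _ A hb).tsum_eq]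
  exact h

end Vale.Agent.P016Z.Pois
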