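import Vale.Agent.P016Z.Pois.Cont

/-!
P016, block HECKE: the theta series near the cusp `0`, and the sum over the ideal classes.
-/

namespace Vale.Agent.P016Z.Pois

open NumberField NumberField.Units Complex Finset Module TH MeasureTheory
open scoped Real nonZeroDivisors

variable {K ι : Type} [Field K] [NumberField K] [Fintype ι] (C : CM K ι)

theorem tsum_El (A : FI K) (f : K → ℂ) (hf : Summable fun x : El A => f x) :
    ∑' x : El A, f x = f 0 + ∑' x : Nz A, f x := by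
  classical
  let i : Nz A → El A := fun x => ⟨x.1, x.2.1⟩
  have hi : Function.Injective i := fun x y h => Subtype.ext (congrArg Subtype.val h :)
  let o : El A := ⟨0, FractionalIdeal.zero_mem _⟩
  rw [hf.tsum_eq_add_tsum_ite o, ← hi.tsum_eq]
  · congr 1
    exact tsum_congr fun x => if_neg fun h => x.2.2 (congrArg Subtype.val h)
  · intro x hx
    refine ⟨⟨x.1, x.2, fun h => hx (if_pos (Subtype.ext h))⟩, rfl⟩

theorem summable_Nz (A : FI K) (y : ι → ℝ) : Summable fun x : Nz A => gs (ex y) (C.em x) := by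
  let i : Nz A → El A := fun x => ⟨x.1, x.2.1⟩
  have hi : Function.Injective i := fun x y h => Subtype.ext (congrArg Subtype.val h :)
  have h := (summable_El C A (t := ex y) (fun _ => Real.exp_pos _) 0).comp_injective hi
  refine h.congr fun x => ?_
  simp [i]

omit [Fintype ι] in
theorem ex_neg (y : ι → ℝ) : (ex y)⁻¹ = ex (-y) := by
  ext j; simp [ex, Real.exp_neg]

theorem poisson_split (A : FI K) (y : ι → ℝ) (a : ι → ℂ) :
    ((∑' x : El A, gs (ex y) (a + C.em x) : ℝ) : ℂ) =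
      ((vol A)⁻¹ * Real.exp (-∑ j, y j) : ℝ) *
        (1 + ∑' ξ : Nz (dl A), (gs (ex (-y)) (C.em ξ) : ℂ) * C.ch ξ a) := by
  have h := poisson_El C A (t := ex y) (fun _ => Real.exp_pos _) a
  rw [ex_neg] at h
  have h1 := tsum_El (dl A) (fun ξ => (gs (ex (-y)) (C.em ξ) : ℂ) * C.ch ξ a) h.summable
  simp only [map_zero, gs_zero, C.ch_zero_left, ofReal_one, one_mul] at h1
  rw [← h1, h.tsum_eq, ← mul_assoc, ← ofReal_mul]
  have h2 : (vol A)⁻¹ * Real.exp (-∑ j, y j) * (vol A * ∏ j, ex y j) = 1 := by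
    simp only [ex, ← Real.exp_sum, Real.exp_neg]
    have := (vol_pos A).ne'
    field_simp
  rw [h2, ofReal_one, one_mul]

theorem poisson_rem (A : FI K) (y : ι → ℝ) (a : ι → ℂ) :
    ‖((∑' x : El A, gs (ex y) (a + C.em x) : ℝ) : ℂ) -
        ((vol A)⁻¹ * Real.exp (-∑ j, y j) : ℝ)‖ ≤
      (vol A)⁻¹ * Real.exp (-∑ j, y j) * thr C (dl A) (-y) := by
  have h0 : 0 ≤ (vol A)⁻¹ * Real.exp (-∑ j, y j) := by have := vol_pos A; positivity
  rw [poisson_split, mul_add, mul_one, add_sub_cancel_left, norm_mul, norm_real,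
    Real.norm_of_nonneg h0]
  refine mul_le_mul_of_nonneg_left ?_ h0
  refine tsum_of_norm_bounded (summable_Nz C (dl A) (-y)).hasSum fun ξ => ?_
  rw [norm_mul, C.norm_ch, mul_one, norm_real, Real.norm_of_nonneg (gs_pos _ _).le]

theorem nI_zero (A : FI K) : nI C A 0 = 0 := by
  have := C.nonempty
  simp [nI, CM.nm]

theorem th_add (A : FI K) {w : ℕ → ℂ} {B : ℝ} (hw : ∀ n, ‖w n‖ ≤ B) (y : ι → ℝ) :
    Summable (fun x : El A => w (nI C A x) * (gs (ex y) (C.em x) : ℂ)) ∧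
    th C A w y + w 0 = ∑' x : El A, w (nI C A x) * (gs (ex y) (C.em x) : ℂ) := by
  have h : Summable (fun x : El A => w (nI C A x) * (gs (ex y) (C.em x) : ℂ)) := by
    refine Summable.of_norm_bounded
      ((summable_El C A (t := ex y) (fun _ => Real.exp_pos _) 0).mul_left B) fun x => ?_
    rw [norm_mul, norm_real, Real.norm_of_nonneg (gs_pos _ _).le, zero_add]
    exact mul_le_mul_of_nonneg_right (hw _) (gs_pos _ _).le
  refine ⟨h, ?_⟩
  rw [tsum_El A (fun x => w (nI C A x) * (gs (ex y) (C.em x) : ℂ)) h, nI_zero, map_zero, gs_zero,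
    ofReal_one, mul_one, add_comm]
  rfl

theorem rem_one (A : FI K) (y : ι → ℝ) : rem C A (fun _ => 1) ((vol A)⁻¹ : ℝ) y =
    (((vol A)⁻¹ * Real.exp (-∑ j, y j) * thr C (dl A) (0 - y) : ℝ) : ℂ) := by
  have h1 := (th_add C A (w := fun _ => 1) (B := 1) (by simp) y).2
  have h2 := poisson_split C A y 0
  simp only [zero_add, C.ch_zero, mul_one, ofReal_tsum] at h2
  simp only [one_mul] at h1
  rw [rem, h1, h2, zero_sub, thr]
  push_cast
  ring

theorem norm_congr (a z : 𝓞 K) (M : ℕ) :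
    (M : ℤ) ∣ Algebra.norm ℤ (a + M * z) - Algebra.norm ℤ a := by
  classical
  rw [← ZMod.intCast_eq_intCast_iff_dvd_sub, Algebra.norm_eq_matrix_det (RingOfIntegers.basis K),
    Algebra.norm_eq_matrix_det (RingOfIntegers.basis K)]
  have h := fun X : Matrix (Free.ChooseBasisIndex ℤ (𝓞 K)) (Free.ChooseBasisIndex ℤ (𝓞 K)) ℤ =>
    (Int.castRingHom (ZMod M)).map_det X
  simp only [eq_intCast] at h
  rw [h, h, map_add, map_mul, map_natCast, map_add, map_mul, map_natCast]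
  have h0 : ((M : ℕ) : Matrix (Free.ChooseBasisIndex ℤ (𝓞 K)) (Free.ChooseBasisIndex ℤ (𝓞 K))
      (ZMod M)) = 0 := by
    rw [← map_natCast (algebraMap (ZMod M) _), ZMod.natCast_self, map_zero]
  rw [h0, zero_mul, add_zero]

theorem exists_rem (J : (Ideal (𝓞 K))⁰) {m : ℕ} (hm : m ≠ 0) {w : ℕ → ℂ} {B : ℝ}
    (hw : ∀ n, ‖w n‖ ≤ B) (hp : ∀ n, w (n + m) = w n) :
    ∃ (c : ℂ) (B' : ℝ) (b : ι → ℝ), 0 ≤ B' ∧ ∀ y, ‖rem C (FractionalIdeal.mk0 K J) w c y‖ ≤
      B' * Real.exp (-∑ j, y j) * thr C (dl 1) (b - y) := by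
  classical
  set A : FI K := FractionalIdeal.mk0 K J with hA
  have hJ : Ideal.absNorm (J : Ideal (𝓞 K)) ≠ 0 := Ideal.absNorm_ne_zero_of_nonZeroDivisors J
  have hAn : nrm A = Ideal.absNorm (J : Ideal (𝓞 K)) := by
    simp [nrm, hA, FractionalIdeal.coeIdeal_absNorm]
  have hmem : ∀ x : 𝓞 K, (x : K) ∈ (A : FractionalIdeal (𝓞 K)⁰ K) ↔ x ∈ (J : Ideal (𝓞 K)) :=
    fun x => by
      rw [hA, FractionalIdeal.coe_mk0, FractionalIdeal.mem_coeIdeal]
      exact ⟨fun ⟨x', h1, h2⟩ => RingOfIntegers.ext h2 ▸ h1, fun h => ⟨x, h, rfl⟩⟩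
  set M : ℕ := m * Ideal.absNorm (J : Ideal (𝓞 K)) with hM
  have hM0 : M ≠ 0 := mul_ne_zero hm hJ
  have hMK : (M : K) ≠ 0 := by exact_mod_cast hM0
  have hMO : (M : 𝓞 K) ≠ 0 := by exact_mod_cast hM0
  have hMJ : (M : 𝓞 K) ∈ (J : Ideal (𝓞 K)) := by
    rw [hM, Nat.cast_mul]
    exact Ideal.mul_mem_left _ _ (Ideal.absNorm_mem _)
  let Q := 𝓞 K ⧸ Ideal.span {(M : 𝓞 K)}
  have : Finite Q := Ideal.finiteQuotientOfFreeOfNeBot _ (by simpa using hM0)
  let _ : Fintype Q := Fintype.ofFinite Q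
  let f : K → ℂ := fun x => if x ∈ (A : FractionalIdeal (𝓞 K)⁰ K) then w (nI C A x) else 0
  have hO : ∀ z : El (1 : FI K), ∃ z' : 𝓞 K, (z' : K) = z := fun z =>
    (FractionalIdeal.mem_one_iff _).1 z.2
  have hint : ∀ x : 𝓞 K, x ∈ (J : Ideal (𝓞 K)) → Algebra.norm ℤ x =
      nI C A x * Ideal.absNorm (J : Ideal (𝓞 K)) := by
    intro x hx
    have h := nm_eq_nI C ((hmem x).2 hx)
    rw [C.nm_eq, ← Algebra.coe_norm_int, hAn] at h
    exact_mod_cast h
  have hf : ∀ a z : 𝓞 K, f (a + M * z) = f a := by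
    intro a z
    have h1 : (a : K) + M * z = ((a + M * z : 𝓞 K) : K) := by push_cast; rfl
    have h2 : a + M * z ∈ (J : Ideal (𝓞 K)) ↔ a ∈ (J : Ideal (𝓞 K)) :=
      Ideal.add_mem_iff_left _ (Ideal.mul_mem_right _ _ hMJ)
    simp only [f, h1, hmem, h2]
    split_ifs with h
    · have h3 := norm_congr a z M
      rw [hint _ h, hint _ (h2.2 h), ← sub_mul, hM, Nat.cast_mul,
        mul_dvd_mul_iff_right (by exact_mod_cast hJ)] at h3
      have h4 : Function.Periodic w m := hp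
      rw [← h4.map_mod_nat, ← h4.map_mod_nat (nI C A a)]
      congr 1
      exact ((Nat.modEq_iff_dvd).2 h3).symm
    · rfl
  let ψ : Q × El (1 : FI K) → K := fun p => ((Quotient.out p.1 : 𝓞 K) : K) + M * p.2
  have hψ : Function.Injective ψ := by
    rintro ⟨q, z⟩ ⟨q', z'⟩ h
    obtain ⟨u, hu⟩ := hO z
    obtain ⟨u', hu'⟩ := hO z'
    simp only [ψ] at h
    have h1 : q = q' := by
      rw [← hu, ← hu'] at h
      have h2 : (Quotient.out q : 𝓞 K) + M * u = Quotient.out q' + M * u' := by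
        apply RingOfIntegers.ext
        push_cast
        exact h
      rw [← Ideal.Quotient.mk_out q, ← Ideal.Quotient.mk_out q', Ideal.Quotient.eq,
        Ideal.mem_span_singleton]
      exact ⟨u' - u, by linear_combination h2⟩
    subst h1
    rw [Subtype.ext (mul_left_cancel₀ hMK (add_left_cancel h))]
  have hr : ∀ x : K, x ∈ (A : FractionalIdeal (𝓞 K)⁰ K) → x ∈ Set.range ψ := by
    intro x hx
    rw [hA, FractionalIdeal.coe_mk0] at hx
    obtain ⟨x', -, rfl⟩ := (FractionalIdeal.mem_coeIdeal _).1 hx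
    have h1 := Ideal.Quotient.mk_out (Ideal.Quotient.mk (Ideal.span {(M : 𝓞 K)}) x')
    rw [eq_comm, Ideal.Quotient.eq, Ideal.mem_span_singleton] at h1
    obtain ⟨z, hz⟩ := h1
    refine ⟨(Ideal.Quotient.mk _ x', ⟨(z : K), (FractionalIdeal.mem_one_iff _).2 ⟨z, rfl⟩⟩), ?_⟩
    have h2 := congrArg (algebraMap (𝓞 K) K) hz
    simp only [map_sub, map_mul, map_natCast] at h2
    simp only [ψ]
    linear_combination -h2
  let b' : ι → ℝ := fun _ => 2 * Real.log M
  let v : ℝ := (vol (1 : FI K))⁻¹ * Real.exp (-∑ j, b' j)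
  have hv : 0 ≤ v := by have := vol_pos (1 : FI K); positivity
  refine ⟨(∑ q : Q, f (Quotient.out q : 𝓞 K)) * v, (∑ q : Q, ‖f (Quotient.out q : 𝓞 K)‖) * v,
    -b', by positivity, fun y => ?_⟩
  obtain ⟨h1, h2⟩ := th_add C A hw y
  let G : K → ℂ := fun x => f x * (gs (ex y) (C.em x) : ℂ)
  have hG0 : ∀ x : K, x ∉ (A : FractionalIdeal (𝓞 K)⁰ K) → G x = 0 := fun x hx => by
    simp only [G, f, if_neg hx, zero_mul]
  have h3 : HasSum G (th C A w y + w 0) := by
    rw [← (Subtype.val_injective (p := fun x : K => x ∈ (A : FractionalIdeal (𝓞 K)⁰ K))).hasSum_iff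
      fun x hx => hG0 x fun h => hx ⟨⟨x, h⟩, rfl⟩, h2]
    refine h1.hasSum.congr_fun fun x => ?_
    simp only [G, f, Function.comp_apply, if_pos x.2]
  rw [← hψ.hasSum_iff fun x hx => hG0 x fun h => hx (hr x h)] at h3
  let θ : Q → ℝ := fun q => ∑' z : El (1 : FI K),
    gs (ex (y + b')) (C.em (((Quotient.out q : 𝓞 K) : K) / M) + C.em z)
  have h4 : ∀ q : Q, HasSum (fun z : El (1 : FI K) => (G ∘ ψ) (q, z))
      (f (Quotient.out q : 𝓞 K) * θ q) := by
    intro q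
    have h5 := (hasSum_ofReal.2 (summable_El C (1 : FI K) (t := ex (y + b'))
      (fun _ => Real.exp_pos _) (C.em (((Quotient.out q : 𝓞 K) : K) / M))).hasSum).mul_left
        (f (Quotient.out q : 𝓞 K))
    refine h5.congr_fun fun z => ?_
    obtain ⟨u, hu⟩ := hO z
    simp only [Function.comp_apply, G, ψ]
    rw [← hu, hf, hu]
    congr 2
    unfold gs
    congr 3
    refine sum_congr rfl fun j _ => ?_
    have h6 : Real.exp (2 * Real.log M) = normSq (M : ℂ) := by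
      rw [normSq_natCast, two_mul, Real.exp_add, Real.exp_log (by positivity)]
    have h7 : (M : ℂ) ≠ 0 := by exact_mod_cast hM0
    simp only [ex, b', Pi.add_apply, Real.exp_add, h6, mul_assoc, ← map_mul normSq, CM.em_apply,
      map_add, map_mul (C.sig j), map_natCast, map_div₀]
    congr 2
    field_simp
  have h8 := (h3.prod_fiberwise h4).unique (hasSum_fintype _)
  have h9 : ((vol (1 : FI K))⁻¹ * Real.exp (-∑ j, (y + b') j) : ℝ) =
      v * Real.exp (-∑ j, y j) := by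
    simp only [v, Pi.add_apply, sum_add_distrib, neg_add, Real.exp_add]
    ring
  have h10 : rem C A w ((∑ q : Q, f (Quotient.out q : 𝓞 K)) * v) y =
      ∑ q : Q, f (Quotient.out q : 𝓞 K) * ((θ q : ℂ) - (v * Real.exp (-∑ j, y j) : ℝ)) := by
    simp only [rem, h8, mul_sub, sum_sub_distrib, ← sum_mul]
    push_cast
    ring
  rw [h10, sum_mul, sum_mul, sum_mul]
  refine (norm_sum_le _ _).trans (sum_le_sum fun q _ => ?_)
  have h11 := poisson_rem C (1 : FI K) (y + b') (C.em (((Quotient.out q : 𝓞 K) : K) / M))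
  rw [h9, show -(y + b') = -b' - y by abel] at h11
  rw [norm_mul]
  exact (mul_le_mul_of_nonneg_left h11 (norm_nonneg _)).trans_eq (by ring)

theorem mem_Cl_iff (A : FI K) (I : (Ideal (𝓞 K))⁰) :
    (∃ x : K, x ≠ 0 ∧ FractionalIdeal.spanSingleton (𝓞 K)⁰ x =
      ((I : Ideal (𝓞 K)) : FractionalIdeal (𝓞 K)⁰ K) * A) ↔
      ClassGroup.mk K A = (ClassGroup.mk0 I)⁻¹ := by
  rw [eq_inv_iff_mul_eq_one, ← ClassGroup.mk_mk0 K, ← map_mul, ClassGroup.mk_eq_one_iff,
    FractionalIdeal.isPrincipal_iff, mul_comm A, Units.val_mul, FractionalIdeal.coe_mk0]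
  constructor
  · rintro ⟨x, -, h⟩
    exact ⟨x, h.symm⟩
  · rintro ⟨x, h⟩
    refine ⟨x, fun h0 => ?_, h.symm⟩
    rw [h0, FractionalIdeal.spanSingleton_zero] at h
    exact mul_ne_zero (FractionalIdeal.coeIdeal_ne_zero.2 (nonZeroDivisors.coe_ne_zero I))
      A.ne_zero h

theorem LK_eq_tsum {w : ℕ → ℂ} {B : ℝ} (hw : ∀ n, ‖w n‖ ≤ B) {s : ℂ} (hs : 1 < s.re) :
    LK K w s = ∑' I : {I : Ideal (𝓞 K) // I ≠ ⊥},
      w (Ideal.absNorm I.1) * (Ideal.absNorm I.1 : ℂ) ^ (-s) := by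
  rw [← (EP.idealEquiv K).tsum_eq]
  simp only [EP.absNorm_idealEquiv]
  rw [EP.tsum_multiset (E := K) (F := fun n => w n * (n : ℂ) ^ (-s)), LK, LSeries]
  · refine tsum_congr fun n => ?_
    rw [LSeries.term_def]
    split_ifs
    · rfl
    · rw [cpow_neg]; ring
  · refine Summable.of_nonneg_of_le (fun n => by positivity) (fun n => ?_)
      ((EP.summable_aK K hs).mul_left B)
    split_ifs with h
    · simp
    · rw [norm_mul, EP.norm_natCast_cpow_neg (Nat.pos_of_ne_zero h), mul_left_comm B]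
      have := hw n
      gcongr

theorem sum_zc (A : ClassGroup (𝓞 K) → FI K)
    (hA : Function.Bijective fun c => ClassGroup.mk K (A c)) {w : ℕ → ℂ} {B : ℝ}
    (hw : ∀ n, ‖w n‖ ≤ B) {s : ℂ} (hs : 1 < s.re) : ∑ c, zc (A c) w s = LK K w s := by
  classical
  let cl : {I : Ideal (𝓞 K) // I ≠ ⊥} → ClassGroup (𝓞 K) := fun I =>
    (ClassGroup.mk0 ⟨I.1, mem_nonZeroDivisors_of_ne_zero I.2⟩)⁻¹
  let t : {I : Ideal (𝓞 K) // I ≠ ⊥} → ℂ := fun I =>
    w (Ideal.absNorm I.1) * (Ideal.absNorm I.1 : ℂ) ^ (-s)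
  have ht : Summable fun I => ‖t I‖ := summable_NI' hw hs
  have h1 : ∀ c, zc (A c) w s = ∑' I, if ClassGroup.mk K (A c) = cl I then t I else 0 := by
    intro c
    let i : Cl (A c) → {I : Ideal (𝓞 K) // I ≠ ⊥} := fun I => ⟨I.1, I.ne_bot⟩
    have hi : Function.Injective i := by
      intro I J h
      have h1 : (i I).1 = (i J).1 := by rw [h]
      exact Subtype.ext h1
    rw [← hi.tsum_eq, zc]
    · exact tsum_congr fun I => (if_pos ((mem_Cl_iff (A c)
        ⟨I.1, mem_nonZeroDivisors_of_ne_zero I.ne_bot⟩).1 I.2)).symm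
    · intro I hI
      have h2 : ClassGroup.mk K (A c) = cl I := by
        by_contra h
        exact hI (if_neg h)
      exact ⟨⟨I.1, (mem_Cl_iff (A c) ⟨I.1, mem_nonZeroDivisors_of_ne_zero I.2⟩).2 h2⟩, rfl⟩
  simp_rw [h1]
  rw [← Summable.tsum_finsetSum, LK_eq_tsum hw hs]
  · refine tsum_congr fun I => ?_
    obtain ⟨c, hc⟩ := hA.2 (cl I)
    rw [sum_eq_single c (fun c' _ h => if_neg fun h' => h (hA.1 (h'.trans hc.symm))) (by simp),
      if_pos hc]
  · intro c _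
    refine Summable.of_norm_bounded ht fun I => ?_
    split_ifs <;> simp

end Vale.Agent.P016Z.Pois
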