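import Vale.Agent.P016Z.Pois.Units
import Vale.Agent.P016Z.Pois.Ideal
import Vale.Agent.P016Z.Cheb.Basic
import Mathlib.MeasureTheory.Function.JacobianOneDim
import Mathlib.MeasureTheory.Integral.IntegralEqImproper

/-!
P016, block POIS: unfolding of the theta integral over a fundamental domain of the units.
-/

namespace Vale.Agent.P016Z.Pois

open NumberField NumberField.Units Complex Finset Module TH MeasureTheory
open scoped Real nonZeroDivisors

variable {K ι : Type} [Field K] [NumberField K] [Fintype ι] (C : CM K ι)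

/-- the nonzero elements of a fractional ideal -/
abbrev Nz (A : FI K) : Type := {x : K // x ∈ (A : FractionalIdeal (𝓞 K)⁰ K) ∧ x ≠ 0}

instance (A : FI K) : Countable (Nz A) :=
  (show Function.Injective (fun x : Nz A => (⟨x.1, x.2.1⟩ : El A)) from
    fun _ _ h => Subtype.ext (congrArg Subtype.val h :)).countable

/-- the integral ideals `I` with `I A` principal -/
abbrev Cl (A : FI K) : Type := {I : Ideal (𝓞 K) // ∃ x : K, x ≠ 0 ∧
  FractionalIdeal.spanSingleton (𝓞 K)⁰ x = (I : FractionalIdeal (𝓞 K)⁰ K) * A}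

/-- the norm of the ideal `(x) A⁻¹` -/
noncomputable def nI (A : FI K) (x : K) : ℕ := ⌊C.nm x / nrm A⌋₊

theorem nm_of_span {A : FI K} {I : Ideal (𝓞 K)} {x : K}
    (h : FractionalIdeal.spanSingleton (𝓞 K)⁰ x = (I : FractionalIdeal (𝓞 K)⁰ K) * A) :
    C.nm x = Ideal.absNorm I * nrm A := by
  have h1 := congrArg FractionalIdeal.absNorm h
  rw [FractionalIdeal.absNorm_span_singleton, map_mul, FractionalIdeal.coeIdeal_absNorm] at h1
  rw [← abs_of_nonneg (C.nm_nonneg x), C.nm_eq, nrm]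
  exact_mod_cast h1

theorem nI_of_span {A : FI K} {I : Ideal (𝓞 K)} {x : K}
    (h : FractionalIdeal.spanSingleton (𝓞 K)⁰ x = (I : FractionalIdeal (𝓞 K)⁰ K) * A) :
    nI C A x = Ideal.absNorm I := by
  rw [nI, nm_of_span C h, mul_div_cancel_right₀ _ (nrm_pos A).ne', Nat.floor_natCast]

theorem exists_span {A : FI K} {x : K} (hx : x ∈ (A : FractionalIdeal (𝓞 K)⁰ K)) :
    ∃ I : Ideal (𝓞 K),
      FractionalIdeal.spanSingleton (𝓞 K)⁰ x = (I : FractionalIdeal (𝓞 K)⁰ K) * A := by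
  have h : FractionalIdeal.spanSingleton (𝓞 K)⁰ x * ((A⁻¹ : FI K) : FractionalIdeal (𝓞 K)⁰ K)
      ≤ 1 := by
    rw [← A.mul_inv]
    exact mul_le_mul_left (FractionalIdeal.spanSingleton_le_iff_mem.2 hx) _
  obtain ⟨I, hI⟩ := FractionalIdeal.le_one_iff_exists_coeIdeal.1 h
  exact ⟨I, by rw [hI, mul_assoc, A.inv_mul, mul_one]⟩

theorem nm_eq_nI {A : FI K} {x : K} (hx : x ∈ (A : FractionalIdeal (𝓞 K)⁰ K)) :
    C.nm x = nI C A x * nrm A := by
  obtain ⟨I, hI⟩ := exists_span hx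
  rw [nI_of_span C hI, nm_of_span C hI]

theorem mem_of_span {A : FI K} {I : Ideal (𝓞 K)} {x : K}
    (h : FractionalIdeal.spanSingleton (𝓞 K)⁰ x = (I : FractionalIdeal (𝓞 K)⁰ K) * A) :
    x ∈ (A : FractionalIdeal (𝓞 K)⁰ K) := by
  rw [← FractionalIdeal.spanSingleton_le_iff_mem, h]
  conv_rhs => rw [← one_mul (A : FractionalIdeal (𝓞 K)⁰ K)]
  exact mul_le_mul_left FractionalIdeal.coeIdeal_le_one _

theorem span_unit (u : (𝓞 K)ˣ) (x : K) : FractionalIdeal.spanSingleton (𝓞 K)⁰ (uK u * x) =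
    FractionalIdeal.spanSingleton (𝓞 K)⁰ x :=
  (FractionalIdeal.spanSingleton_eq_spanSingleton.2 ⟨u, rfl⟩).symm

omit [Fintype ι] in
theorem exists_gen {F : Set (ι → ℝ)} (hF : FD C F) (y : ι → ℝ) {A : FI K} (I : Cl A) :
    ∃ x : K, x ≠ 0 ∧ FractionalIdeal.spanSingleton (𝓞 K)⁰ x =
      (I.1 : FractionalIdeal (𝓞 K)⁰ K) * A ∧ y - lg C x ∈ F := by
  obtain ⟨x, hx, h⟩ := I.2
  obtain ⟨n, hn, -⟩ := hF.2 (y - lg C x)
  refine ⟨uK (un K n) * x, mul_ne_zero (uK_ne _) hx, by rw [span_unit, h], ?_⟩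
  rw [lg_mul C (uK_ne _) hx]
  rwa [show y - (lg C (uK (un K n)) + lg C x) = y - lg C x - lam C n by unfold lam; abel]

open Classical in
/-- the generators in a fundamental domain: each ideal is counted `w` times -/
theorem comb {F : Set (ι → ℝ)} (hF : FD C F) (y : ι → ℝ) (A : FI K) (H : ℕ → ℂ)
    (hH : Summable fun I : Cl A => ‖H (Ideal.absNorm I.1)‖) :
    HasSum (fun x : Nz A => if y - lg C x ∈ F then H (nI C A x) else 0)
      (torsionOrder K * ∑' I : Cl A, H (Ideal.absNorm I.1)) := by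
  choose g hg0 hg1 hg2 using fun I : Cl A => exists_gen C hF y I
  let φ : torsion K × Cl A → Nz A := fun p => ⟨uK p.1 * g p.2,
    mem_of_span ((span_unit _ _).trans (hg1 p.2)), mul_ne_zero (uK_ne _) (hg0 _)⟩
  have hφ : Function.Injective φ := by
    rintro ⟨ζ, I⟩ ⟨ζ', I'⟩ h
    have h1 : uK ζ * g I = uK ζ' * g I' := congrArg Subtype.val h
    have h2 : I = I' := by
      have h3 := (span_unit ζ (g I)).trans (hg1 I)
      rw [h1, span_unit, hg1] at h3
      exact Subtype.ext (FractionalIdeal.coeIdeal_inj.1 ((Units.mul_left_inj A).1 h3)).symm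
    subst h2
    have h4 := mul_right_cancel₀ (hg0 I) h1
    have h5 : ζ = ζ' := Subtype.ext (Units.ext (RingOfIntegers.ext h4))
    rw [h5]
  have hlg : ∀ p, lg C (φ p : K) = lg C (g p.2) := fun p => by
    change lg C (uK p.1 * g p.2) = _
    rw [lg_mul C (uK_ne _) (hg0 _), lg_torsion C p.1.2, zero_add]
  have hr : ∀ x : Nz A, x ∉ Set.range φ →
      (if y - lg C x ∈ F then H (nI C A x) else 0) = 0 := by
    intro x hx
    refine if_neg fun hy => hx ?_
    obtain ⟨I, hI⟩ := exists_span x.2.1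
    let I' : Cl A := ⟨I, x.1, x.2.2, hI⟩
    obtain ⟨u, hu⟩ := FractionalIdeal.spanSingleton_eq_spanSingleton.1 ((hg1 I').trans hI.symm)
    obtain ⟨⟨ζ, n⟩, hn, -⟩ := exist_unique_eq_mul_prod K u
    have hx1 : x.1 = uK ζ * (uK (un K n) * g I') := by
      rw [← hu, hn, ← mul_assoc, ← uK_mul]; rfl
    obtain ⟨m, -, hm⟩ := hF.2 (y - lg C (g I'))
    have h0 : n = 0 := by
      rw [hm 0 (by simpa [lam_eq] using hg2 I')]
      refine hm n ?_
      rw [hx1, lg_mul C (uK_ne _) (mul_ne_zero (uK_ne _) (hg0 _)), lg_torsion C ζ.2, zero_add,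
        lg_mul C (uK_ne _) (hg0 _)] at hy
      rwa [show y - lg C (g I') - lam C n = y - (lg C (uK (un K n)) + lg C (g I')) by
        unfold lam; abel]
    refine ⟨(ζ, I'), Subtype.ext ?_⟩
    rw [hx1, h0]
    simp [φ, un, uK]
  rw [← hφ.hasSum_iff hr]
  have h1 : (fun x : Nz A => if y - lg C x ∈ F then H (nI C A x) else 0) ∘ φ =
      fun p : torsion K × Cl A => (1 : ℂ) * H (Ideal.absNorm p.2.1) := by
    ext p
    simp only [Function.comp_apply, hlg, hg2, if_true, one_mul]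
    rw [nI_of_span C ((span_unit _ _).trans (hg1 p.2))]
  have h2 : Summable fun _ : torsion K => ‖(1 : ℂ)‖ := .of_finite
  have h3 := tsum_mul_tsum_of_summable_norm h2 hH
  rw [tsum_const, nsmul_one] at h3
  rw [h1, torsionOrder, h3]
  exact (summable_mul_of_summable_norm h2 hH).hasSum

/-- the archimedean integrand -/
noncomputable def GG (s : ℂ) (y : ι → ℝ) : ℂ := ∏ j, cexp (s * y j - 2 * π * Real.exp (y j))

theorem gamma_one {s : ℂ} (hs : 0 < s.re) :
    Integrable (fun y : ℝ => cexp (s * y - 2 * π * Real.exp y)) ∧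
      ∫ y : ℝ, cexp (s * y - 2 * π * Real.exp y) = (1 / (2 * π)) ^ s * Gamma s := by
  let g : ℝ → ℂ := fun t => (t : ℂ) ^ (s - 1) * cexp (-(((2 * π : ℝ) : ℂ) * t))
  have h0 : ∀ y : ℝ, |Real.exp y| • g (Real.exp y) = cexp (s * y - 2 * π * Real.exp y) := by
    intro y
    simp only [g, abs_of_pos (Real.exp_pos y), real_smul]
    rw [cpow_def_of_ne_zero (by exact_mod_cast (Real.exp_pos y).ne'),
      ← ofReal_log (Real.exp_pos y).le, Real.log_exp, ofReal_exp y, ← Complex.exp_add,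
      ← Complex.exp_add]
    congr 1
    push_cast
    ring
  have h1 : Real.exp '' Set.univ = Set.Ioi 0 := by rw [Set.image_univ, Real.range_exp]
  have h2 : IntegrableOn g (Set.Ioi 0) := by
    have h3 := (integrableOn_Ioi_comp_mul_left_iff
      (fun x : ℝ => ((Real.exp (-x) : ℝ) : ℂ) * (x : ℂ) ^ (s - 1)) 0 Real.two_pi_pos).2
      (by rw [mul_zero]; exact Complex.GammaIntegral_convergent hs)
    refine (IntegrableOn.congr_fun (h3.const_mul ((((2 * π : ℝ) : ℂ) ^ (s - 1))⁻¹)) ?_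
      measurableSet_Ioi)
    intro t ht
    have h4 : ((2 * π : ℝ) : ℂ) ^ (s - 1) ≠ 0 := by
      rw [Ne, cpow_eq_zero_iff, not_and_or]
      exact Or.inl (by exact_mod_cast Real.two_pi_pos.ne')
    simp only [g]
    rw [ofReal_mul (2 * π) t, mul_cpow_ofReal_nonneg Real.two_pi_pos.le (le_of_lt ht), ofReal_exp]
    field_simp
    push_cast
    ring_nf
  constructor
  · rw [← h1, integrableOn_image_iff_integrableOn_abs_deriv_smul MeasurableSet.univ
      (fun x _ => (Real.hasDerivAt_exp x).hasDerivWithinAt) Real.exp_injective.injOn] at h2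
    simpa only [h0, integrableOn_univ] using h2
  · have h5 := integral_image_eq_integral_abs_deriv_smul MeasurableSet.univ
      (fun x _ => (Real.hasDerivAt_exp x).hasDerivWithinAt) Real.exp_injective.injOn g
    rw [h1, integral_cpow_mul_exp_neg_mul_Ioi hs Real.two_pi_pos] at h5
    simp only [h0, Measure.restrict_univ] at h5
    rw [← h5]
    push_cast
    rfl

theorem integrable_GG {s : ℂ} (hs : 0 < s.re) : Integrable (GG (ι := ι) s) :=
  Integrable.fintype_prod (f := fun _ (y : ℝ) => cexp (s * y - 2 * π * Real.exp y))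
    fun _ => (gamma_one hs).1

theorem integral_GG {s : ℂ} (hs : 0 < s.re) :
    ∫ y : ι → ℝ, GG s y = ((1 / (2 * π)) ^ s * Gamma s) ^ Fintype.card ι := by
  unfold GG
  rw [integral_fintype_prod_volume_eq_pow (fun y : ℝ => cexp (s * y - 2 * π * Real.exp y)),
    (gamma_one hs).2]

/-- the vector of the `exp y_j` -/
noncomputable def ex (y : ι → ℝ) : ι → ℝ := fun j => Real.exp (y j)

omit [NumberField K] in
theorem GG_shift (s : ℂ) (y : ι → ℝ) {x : K} (hx : x ≠ 0) :
    cexp (s * (∑ j, y j : ℝ)) * (gs (ex y) (C.em x) : ℂ) =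
      cexp (-s * Real.log (C.nm x)) * GG s (y + lg C x) := by
  rw [GG, ← Complex.exp_sum, gs, ofReal_exp, ← Complex.exp_add, ← Complex.exp_add, ← sum_lg C hx]
  congr 1
  simp only [Pi.add_apply, Real.exp_add, exp_lg C hx, ex, CM.em_apply]
  push_cast
  simp only [mul_add, sum_add_distrib, sum_sub_distrib, ← mul_sum]
  ring

/-- the theta series without the zero term -/
noncomputable def th (A : FI K) (w : ℕ → ℂ) (y : ι → ℝ) : ℂ :=
  ∑' x : Nz A, w (nI C A x) * (gs (ex y) (C.em x) : ℂ)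

/-- the zeta function of a class -/
noncomputable def zc (A : FI K) (w : ℕ → ℂ) (s : ℂ) : ℂ :=
  ∑' I : Cl A, w (Ideal.absNorm I.1) * (Ideal.absNorm I.1 : ℂ) ^ (-s)

theorem Cl.ne_bot {A : FI K} (I : Cl A) : I.1 ≠ ⊥ := by
  obtain ⟨x, hx, h⟩ := I.2
  intro h0
  rw [h0, FractionalIdeal.coeIdeal_bot, zero_mul] at h
  exact hx (FractionalIdeal.spanSingleton_eq_zero_iff.1 h)

theorem summable_NI {σ : ℝ} (hσ : 1 < σ) :
    Summable fun I : {I : Ideal (𝓞 K) // I ≠ ⊥} => (Ideal.absNorm I.1 : ℝ) ^ (-σ) := by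
  rw [← (EP.idealEquiv K).summable_iff]
  refine (EP.summable_multiset (E := K) (F := fun n => (n : ℝ) ^ (-σ)) (fun n => by positivity)
    (EP.summable_aK K hσ)).congr fun m => ?_
  simp only [Function.comp_apply, EP.absNorm_idealEquiv]

theorem summable_NI' {w : ℕ → ℂ} {B : ℝ} (hw : ∀ n, ‖w n‖ ≤ B) {s : ℂ} (hs : 1 < s.re) :
    Summable fun I : {I : Ideal (𝓞 K) // I ≠ ⊥} =>
      ‖w (Ideal.absNorm I.1) * (Ideal.absNorm I.1 : ℂ) ^ (-s)‖ := by
  refine Summable.of_nonneg_of_le (fun _ => norm_nonneg _) (fun I => ?_)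
    ((summable_NI hs).mul_left B)
  rw [norm_mul, EP.norm_natCast_cpow_neg
    (Nat.pos_of_ne_zero fun h => I.2 (Ideal.absNorm_eq_zero_iff.1 h))]
  exact mul_le_mul_of_nonneg_right (hw _) (by positivity)

theorem summable_Cl (A : FI K) {w : ℕ → ℂ} {B : ℝ} (hw : ∀ n, ‖w n‖ ≤ B) {s : ℂ}
    (hs : 1 < s.re) :
    Summable fun I : Cl A => ‖w (Ideal.absNorm I.1) * (Ideal.absNorm I.1 : ℂ) ^ (-s)‖ := by
  let i : Cl A → {I : Ideal (𝓞 K) // I ≠ ⊥} := fun I => ⟨I.1, I.ne_bot⟩
  have hi : Function.Injective i := by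
    intro I J h
    have h1 : (i I).1 = (i J).1 := by rw [h]
    exact Subtype.ext h1
  have h := (summable_NI' (K := K) hw hs).comp_injective hi
  exact h

theorem measurable_th (A : FI K) (w : ℕ → ℂ) : Measurable (th C A w) := by
  refine Measurable.tsum fun x => ?_
  unfold gs ex
  fun_prop

/-- **Unfolding.** -/
theorem unfold_th {F : Set (ι → ℝ)} (hF : FD C F) (A : FI K) {w : ℕ → ℂ} {B : ℝ}
    (hw : ∀ n, ‖w n‖ ≤ B) {s : ℂ} (hs : 1 < s.re) :
    IntegrableOn (fun y => cexp (s * (∑ j, y j : ℝ)) * th C A w y) F ∧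
    ∫ y in F, cexp (s * (∑ j, y j : ℝ)) * th C A w y =
      torsionOrder K * ((1 / (2 * π)) ^ s * Gamma s) ^ Fintype.card ι *
        cexp (-s * Real.log (nrm A)) * zc A w s := by
  classical
  have hs0 : 0 < s.re := by linarith
  let H : ℕ → ℂ := fun n => w n * (n : ℂ) ^ (-s)
  let c : ℂ := cexp (-s * Real.log (nrm A))
  let b : Nz A → (ι → ℝ) → ℂ := fun x y =>
    (if y - lg C x ∈ F then H (nI C A x) else 0) * (c * GG s y)
  let a : Nz A → (ι → ℝ) → ℂ := fun x y => b x (y + lg C x)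
  have hH : Summable fun I : Cl A => ‖H (Ideal.absNorm I.1)‖ := summable_Cl A hw hs
  have ha : ∀ y, ∑' x, a x y =
      F.indicator (fun y => cexp (s * (∑ j, y j : ℝ)) * th C A w y) y := by
    intro y
    simp only [a, b, add_sub_cancel_right]
    by_cases hy : y ∈ F
    · rw [Set.indicator_of_mem hy, th, ← tsum_mul_left]
      refine tsum_congr fun x => ?_
      have h1 := C.nm_pos x.2.2
      have h2 := nm_eq_nI C x.2.1
      have h3 : (nI C A x : ℝ) ≠ 0 := fun h => by rw [h2, h, zero_mul] at h1; exact h1.false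
      rw [if_pos hy, mul_left_comm (cexp _), GG_shift C s y x.2.2, h2,
        Real.log_mul h3 (nrm_pos A).ne']
      simp only [H, c]
      rw [cpow_def_of_ne_zero (by exact_mod_cast h3), ← natCast_log, ofReal_add, mul_add,
        Complex.exp_add, mul_comm (Real.log _ : ℂ)]
      ring
    · simp [hy]
  have hG : Measurable (GG (ι := ι) s) := by unfold GG; fun_prop
  have hbm : ∀ x, Measurable (b x) := fun x =>
    (Measurable.ite ((measurable_id.sub measurable_const) hF.1) measurable_const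
      measurable_const).mul (hG.const_mul c)
  have ham : ∀ x, Measurable (a x) := fun x => (hbm x).comp (measurable_id.add measurable_const)
  have hb1 : ∀ y, HasSum (fun x => b x y) (torsionOrder K * zc A w s * (c * GG s y)) :=
    fun y => (comb C hF y A H hH).mul_right _
  have hb2 : ∑' x, ∫⁻ y, ‖b x y‖ₑ ≠ ⊤ := by
    rw [← lintegral_tsum fun x => (hbm x).enorm.aemeasurable]
    set Z : ℝ := ((torsionOrder K : ℂ) * ∑' I : Cl A, ((‖H (Ideal.absNorm I.1)‖ : ℝ) : ℂ)).re
    have h1 : ∀ y, ∑' x, ‖b x y‖ₑ = ENNReal.ofReal Z * ‖c * GG s y‖ₑ := by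
      intro y
      have h2 := hasSum_re (comb C hF y A (fun n => ((‖H n‖ : ℝ) : ℂ)) (by simpa using hH))
      have h3 : (fun x : Nz A => (if y - lg C x ∈ F then ((‖H (nI C A x)‖ : ℝ) : ℂ) else 0).re) =
          fun x : Nz A => ‖if y - lg C x ∈ F then H (nI C A x) else 0‖ := by
        ext x
        split_ifs <;> simp
      rw [h3] at h2
      simp only [b, enorm_mul]
      rw [ENNReal.tsum_mul_right, ← enorm_mul]
      congr 1
      simp_rw [← ofReal_norm]
      rw [← ENNReal.ofReal_tsum_of_nonneg (fun _ => norm_nonneg _) h2.summable, h2.tsum_eq]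
    simp_rw [h1]
    rw [lintegral_const_mul' _ _ ENNReal.ofReal_ne_top]
    exact ENNReal.mul_ne_top ENNReal.ofReal_ne_top ((integrable_GG hs0).const_mul c).2.ne
  have ha2 : ∑' x, ∫⁻ y, ‖a x y‖ₑ ≠ ⊤ := by
    have : ∀ x, ∫⁻ y, ‖a x y‖ₑ = ∫⁻ y, ‖b x y‖ₑ := fun x =>
      lintegral_add_right_eq_self (fun y => ‖b x y‖ₑ) _
    simpa only [this] using hb2
  constructor
  · rw [← integrable_indicator_iff hF.1, ← funext ha]
    refine ⟨(Measurable.tsum ham).aestronglyMeasurable, ?_⟩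
    refine lt_of_le_of_lt (lintegral_mono fun y => enorm_tsum_le_tsum_enorm) ?_
    rw [lintegral_tsum fun x => (ham x).enorm.aemeasurable]
    exact ha2.lt_top
  · rw [← integral_indicator hF.1, ← funext ha,
      integral_tsum (fun x => (ham x).aestronglyMeasurable) ha2]
    have : ∀ x, ∫ y, a x y = ∫ y, b x y := fun x => integral_add_right_eq_self (b x) _
    simp_rw [this]
    rw [← integral_tsum (fun x => (hbm x).aestronglyMeasurable) hb2]
    simp_rw [fun y => (hb1 y).tsum_eq]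
    rw [integral_const_mul, integral_const_mul, integral_GG hs0]
    ring

end Vale.Agent.P016Z.Pois
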